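import Vale.Agent.P301Z.Hl.Defs

/-!
# P301, block HL: the form `lv`, smoothness of two-forms, types
-/

open scoped ContDiff ComplexOrder Topology Matrix
open Set Filter Complex Function
open Vale.Agent.P272.K Vale.Agent.P299.IX Vale.Agent.P299.IX.Fock
open Vale.Agent.P281Z.Hg
open Vale.Agent.P301Z.Lat Vale.Agent.P301Z.Rot

noncomputable section

namespace Vale.Agent.P301Z.Hl

section gen

variable {E : Type} [NormedAddCommGroup E] [NormedSpace ℝ E] [NormedSpace ℂ E] (P : E → ℝ)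
  (q v w v' : E)

theorem lv_add_left : lv P q (v + w) v' = lv P q v v' + lv P q w v' := by
  simp only [lv, smul_add, map_add, _root_.add_apply]
  ring

theorem lv_add_right : lv P q v' (v + w) = lv P q v' v + lv P q v' w := by
  simp only [lv, smul_add, map_add]
  ring

theorem lv_neg : lv P q (-v) v' = -lv P q v v' := by
  simp only [lv, smul_neg, map_neg, _root_.neg_apply]
  ring

theorem lv_neg_right : lv P q v (-v') = -lv P q v v' := by
  simp only [lv, smul_neg, map_neg]
  ring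

theorem lv_I : lv P q (I • v) v' = -lv P q v (I • v') := by
  simp only [lv, smul_smul, I_mul_I, neg_one_smul, map_neg, _root_.neg_apply]
  ring

theorem lv_smul_left [SMulCommClass ℂ ℝ E] (c : ℝ) : lv P q (c • v) v' = c * lv P q v v' := by
  simp only [lv, smul_comm I c, map_smul, _root_.smul_apply, smul_eq_mul]
  ring

theorem lv_smul_right [SMulCommClass ℂ ℝ E] (c : ℝ) : lv P q v (c • v') = c * lv P q v v' := by
  simp only [lv, smul_comm I c, map_smul, smul_eq_mul]
  ring

variable {P q}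

theorem lv_skew (h : ContDiffAt ℝ 2 P q) : lv P q v v' = -lv P q v' v := by
  have k := h.isSymmSndFDerivAt (by rw [minSmoothness_of_isRCLikeNormedField])
  rw [lv, lv, k.eq (I • v) v', k.eq v (I • v')]
  ring

end gen

namespace LvA

section calc2

variable {E E' F F' : Type} [NormedAddCommGroup E] [NormedSpace ℝ E] [NormedAddCommGroup E']
  [NormedSpace ℝ E'] [NormedAddCommGroup F] [NormedSpace ℝ F] [NormedAddCommGroup F']
  [NormedSpace ℝ F']

theorem dif2 {f : E → E'} {x : E} (h : ContDiffAt ℝ 2 f x) : DifferentiableAt ℝ (fderiv ℝ f) x :=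
  (h.fderiv_right (m := 1) le_rfl).differentiableAt one_ne_zero

theorem ev1 {f : E → E'} {x : E} (h : ContDiffAt ℝ 2 f x) : ∀ᶠ y in 𝓝 x, DifferentiableAt ℝ f y :=
  (h.eventually (by simp)).mono fun _ hy => hy.differentiableAt two_ne_zero

theorem fd_app {M : E → F →L[ℝ] F'} {x : E} (hM : DifferentiableAt ℝ M x) (v : F) :
    HasFDerivAt (fun y => M y v) ((ContinuousLinearMap.apply ℝ F' v).comp (fderiv ℝ M x)) x :=
  (ContinuousLinearMap.apply ℝ F' v).hasFDerivAt.comp x hM.hasFDerivAt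

/-- the chain rule of second order -/
theorem d2_comp {P : E' → F} {h : E → E'} {z : E} (hP : ContDiffAt ℝ 2 P (h z))
    (hh : ContDiffAt ℝ 2 h z) (v v' : E) : fderiv ℝ (fderiv ℝ fun y => P (h y)) z v v' =
      fderiv ℝ (fderiv ℝ P) (h z) (fderiv ℝ h z v) (fderiv ℝ h z v') +
        fderiv ℝ P (h z) (fderiv ℝ (fderiv ℝ h) z v v') := by
  have h1 : (fderiv ℝ fun y => P (h y)) =ᶠ[𝓝 z] fun y => (fderiv ℝ P (h y)).comp (fderiv ℝ h y) := by
    filter_upwards [ev1 hh, hh.continuousAt.eventually (ev1 hP)] with y k1 k2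
    exact fderiv_comp y k2 k1
  have hc : HasFDerivAt (fun w => fderiv ℝ P (h w))
      ((fderiv ℝ (fderiv ℝ P) (h z)).comp (fderiv ℝ h z)) z :=
    (dif2 hP).hasFDerivAt.comp z (hh.differentiableAt two_ne_zero).hasFDerivAt
  rw [h1.fderiv_eq, fderiv_clm_comp hc.differentiableAt (dif2 hh), hc.fderiv]
  simp [add_comm]

theorem fd_smul [NormedSpace ℂ F'] [SMulCommClass ℝ ℂ F'] {M : E → F →L[ℝ] F'} {x : E}
    (hM : DifferentiableAt ℝ M x) {v v' : F} {c : ℂ} (h : ∀ᶠ y in 𝓝 x, M y v' = c • M y v)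
    (u : E) : fderiv ℝ M x u v' = c • fderiv ℝ M x u v := by
  have h1 := ((fd_app hM v).const_smul c).congr_of_eventuallyEq h
  have h2 := (fd_app hM v').unique h1
  exact congrArg (fun L : E →L[ℝ] F' => L u) h2

end calc2

variable {d : ℕ}

/-- the sesquilinear part of a real bilinear form -/
def sq (D : Cm d →L[ℝ] Cm d →L[ℝ] ℝ) (v' : Cm d) : Cm d →ₗ[ℂ] ℂ where
  toFun v := ((D v v' : ℂ) + D (I • v) (I • v') + I * (D v (I • v') - D (I • v) v')) / 4
  map_add' v w := by
    simp only [smul_add, map_add, _root_.add_apply, ofReal_add]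
    ring
  map_smul' c v := by
    have e1 : c • v = c.re • v + c.im • I • v := by
      conv_lhs => rw [← re_add_im c]
      rw [add_smul, mul_smul, coe_smul, coe_smul]
    have e2 : I • c • v = c.re • I • v - c.im • v := by
      rw [e1, smul_add, smul_comm I c.re, smul_comm I c.im, smul_smul I I, I_mul_I, neg_one_smul,
        smul_neg, sub_eq_add_neg]
    rw [e2, e1]
    simp only [map_add, map_sub, map_smul, _root_.add_apply,
      _root_.sub_apply, _root_.smul_apply, smul_eq_mul, ofReal_add,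
      ofReal_sub, ofReal_mul, RingHom.id_apply]
    conv_rhs => rw [← re_add_im c]
    linear_combination (c.im * ((D (I • v) v' : ℂ) - D v (I • v')) / 4) * I_mul_I

theorem sq_apply (D : Cm d →L[ℝ] Cm d →L[ℝ] ℝ) (v v' : Cm d) : sq D v' v =
    ((D v v' : ℂ) + D (I • v) (I • v') + I * (D v (I • v') - D (I • v) v')) / 4 := rfl

theorem sq_conj {D : Cm d →L[ℝ] Cm d →L[ℝ] ℝ} (h : ∀ u u', D u u' = D u' u) (v v' : Cm d) :
    sq D v' v = (starRingEnd ℂ) (sq D v v') := by
  rw [sq_apply, sq_apply, h v' v, h (I • v') (I • v), h v' (I • v), h (I • v') v]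
  simp only [map_div₀, map_add, map_mul, map_sub, conj_ofReal, conj_I, map_ofNat]
  ring

theorem sq_sum (D : Cm d →L[ℝ] Cm d →L[ℝ] ℝ) (v v' : Cm d) :
    sq D v' v = ∑ j, v j * sq D v' (Pi.single j 1) := by
  have h1 : v = ∑ a, v a • (Pi.single a 1 : Cm d) := by
    funext i
    simp [Finset.sum_apply, Pi.single_apply]
  conv_lhs => rw [h1, map_sum]
  simp only [map_smul, smul_eq_mul]

theorem hess_sq {f : Cm d → ℝ} {z : Cm d} (h : ContDiffAt ℝ 2 f z) (j k : Fin d) :
    cHess f z j k = sq (fderiv ℝ (fderiv ℝ f) z) (Pi.single k 1) (Pi.single j 1) := by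
  have h1 : (dzb k fun y => (f y : ℂ)) =ᶠ[𝓝 z] fun y => (2 : ℂ)⁻¹ *
      ((ofRealCLM (fderiv ℝ f y (Pi.single k 1))) +
        I * ofRealCLM (fderiv ℝ f y (I • Pi.single k 1))) := by
    filter_upwards [ev1 h] with y hy
    have k1 : HasFDerivAt (fun y => (f y : ℂ)) (ofRealCLM.comp (fderiv ℝ f y)) y :=
      ofRealCLM.hasFDerivAt.comp y hy.hasFDerivAt
    rw [dzb, k1.fderiv, single_I, mul_one]
    simp only [ContinuousLinearMap.comp_apply]
    ring
  have h2 := (((ofRealCLM.hasFDerivAt.comp z (fd_app (dif2 h) (Pi.single k 1))).add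
    ((ofRealCLM.hasFDerivAt.comp z (fd_app (dif2 h) (I • Pi.single k 1))).const_mul I)).const_mul
      (2 : ℂ)⁻¹).congr_of_eventuallyEq h1
  rw [cHess_apply, dz, h2.fderiv, sq_apply, single_I j, mul_one]
  simp only [_root_.smul_apply, _root_.add_apply,
    ContinuousLinearMap.comp_apply, ContinuousLinearMap.apply_apply, ofRealCLM_apply, smul_eq_mul]
  linear_combination (-(fderiv ℝ (fderiv ℝ f) z (Pi.single j I) (I • Pi.single k 1) : ℂ) / 4) *
    I_mul_I

theorem hess_dot {f : Cm d → ℝ} {z : Cm d} (h : ContDiffAt ℝ 2 f z) (v v' : Cm d) :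
    v ⬝ᵥ cHess f z *ᵥ star v' = sq (fderiv ℝ (fderiv ℝ f) z) v' v := by
  have k := (h.isSymmSndFDerivAt (by rw [minSmoothness_of_isRCLikeNormedField])).eq
  rw [sq_sum]
  refine Finset.sum_congr rfl fun j _ => congrArg _ ?_
  rw [sq_conj k, sq_sum, map_sum, Matrix.mulVec, dotProduct]
  refine Finset.sum_congr rfl fun l _ => ?_
  rw [map_mul, ← sq_conj k, hess_sq h, mul_comm]
  rfl

theorem hess {f : Cm d → ℝ} {z : Cm d} (v v' : Cm d) (h : ContDiffAt ℝ 2 f z) :
    (lv f z v v' : ℂ) = bv (f11 (cHess f z)) v v' := by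
  have k := (h.isSymmSndFDerivAt (by rw [minSmoothness_of_isRCLikeNormedField])).eq
  rw [bv_f11, hess_dot h, hess_dot h, sq_apply, sq_apply, lv, k v' v, k (I • v') (I • v),
    k v' (I • v), k (I • v') v]
  push_cast
  linear_combination (((fderiv ℝ (fderiv ℝ f) z (I • v) v' : ℂ) -
    fderiv ℝ (fderiv ℝ f) z v (I • v')) / 2) * I_mul_I

theorem hol {D p : ℕ} {P : Cm p × Cm d → ℝ} {h : Cm D → Cm p × Cm d} {z : Cm D} (v v' : Cm D)
    (hh : AnalyticAt ℂ h z) (hP : ContDiffAt ℝ 2 P (h z)) :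
    lv (fun y => P (h y)) z v v' = lv P (h z) (fderiv ℝ h z v) (fderiv ℝ h z v') := by
  have h2 : ContDiffAt ℝ 2 h z := hh.contDiffAt.restrict_scalars ℝ
  have h1 : ∀ᶠ y in 𝓝 z, ∀ u, fderiv ℝ h y (I • u) = I • fderiv ℝ h y u := by
    filter_upwards [hh.eventually_analyticAt] with y hy u
    rw [(hy.differentiableAt.hasFDerivAt.restrictScalars ℝ).fderiv]
    exact (fderiv ℂ h y).map_smul I u
  have h3 : ∀ a b, fderiv ℝ (fderiv ℝ h) z a (I • b) = I • fderiv ℝ (fderiv ℝ h) z a b :=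
    fun a b => fd_smul (dif2 h2) (h1.mono fun y hy => hy b) a
  have k := (h2.isSymmSndFDerivAt (by rw [minSmoothness_of_isRCLikeNormedField])).eq
  rw [lv, lv, d2_comp hP h2, d2_comp hP h2, k (I • v) v', h3, h3, k v' v, h1.self_of_nhds,
    h1.self_of_nhds]
  ring

/-- a real basis -/
def bs (i : Fin d × Bool) : Cm d := Pi.single i.1 (if i.2 then 1 else I)

theorem zero_of {u : Fo d} (hu : dg 2 *ᵥ u = u) (h : ∀ i i', bv u (bs i) (bs i') = 0) : u = 0 := by
  have k : ∀ j k, mhh u j k = 0 ∧ mha u j k = 0 ∧ maa u j k = 0 := fun j k => by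
    have h1 := h (j, true) (k, true)
    have h2 := h (j, true) (k, false)
    have h3 := h (j, false) (k, true)
    have h4 := h (j, false) (k, false)
    simp only [bs, if_true, Bool.false_eq_true, if_false, bv_single, star_one, Complex.star_def,
      conj_I, mul_one, one_mul] at h1 h2 h3 h4
    refine ⟨?_, ?_, ?_⟩
    · linear_combination h1 / 4 - h4 / 4 - I * h2 / 4 - I * h3 / 4 +
        ((3 * mhh u j k - mha u j k + mha u k j - maa u j k) / 4) * I_mul_I
    · linear_combination h1 / 4 + h4 / 4 + I * h2 / 4 - I * h3 / 4 +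
        ((-mhh u j k + 3 * mha u j k + mha u k j - maa u j k) / 4) * I_mul_I
    · linear_combination h1 / 4 - h4 / 4 + I * h2 / 4 + I * h3 / 4 +
        ((-mhh u j k - mha u j k + mha u k j + 3 * maa u j k) / 4) * I_mul_I
  have k1 : mhh u = 0 := Matrix.ext fun a b => (k a b).1
  have k2 : mha u = 0 := Matrix.ext fun a b => (k a b).2.1
  have k3 : maa u = 0 := Matrix.ext fun a b => (k a b).2.2
  refine bv_ext hu (Matrix.mulVec_zero _) fun v v' => ?_
  rw [bv_eq, k1, k2, k3, ← zero_smul ℂ (0 : Fo d), bv_smul]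
  simp

theorem f11_inj {w w' : Mx d} (h : ∀ v v', bv (f11 w) v v' = bv (f11 w') v v') : w = w' := by
  ext j k
  have h1 := h (Pi.single j 1) (Pi.single k 1)
  have h2 := h (Pi.single j 1) (Pi.single k I)
  simp only [bv_f11, star_single, dot_single, star_one, Complex.star_def, conj_I, mul_one,
    one_mul] at h1 h2
  linear_combination -I * h1 / 2 + h2 / 2 + (w j k - w' j k) * I_mul_I

theorem bv_pull (g J : Mx d) (v v' : Cm d) :
    bv (f11 (Jᵀ * g * J.map (starRingEnd ℂ))) v v' = bv (f11 g) (J *ᵥ v) (J *ᵥ v') := by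
  rw [bv_f11, bv_f11, star_mv, star_mv, dot_conj, dot_conj]

end LvA

open LvA in
theorem lv_ok : LV where
  hess _ _ v v' h := hess v v' h
  fib := by
    intro p d P q v v' h
    have h1 : AnalyticAt ℂ (fun z : Cm d => (q.1, z)) q.2 := analyticAt_const.prod analyticAt_id
    have h2 : HasFDerivAt (fun z : Cm d => (q.1, z)) (ContinuousLinearMap.inr ℝ _ _) q.2 :=
      hasFDerivAt_prodMk_right _ _
    have h3 := hol (P := P) v v' h1 h
    rw [h2.fderiv] at h3
    rw [gP, ← hess (f := fun z => P (q.1, z)) v v' (ContDiffAt.comp q.2 (g := P) h (h1.contDiffAt.restrict_scalars ℝ))]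
    exact congrArg _ h3.symm
  hol _ _ _ v v' hh hP := hol v v' hh hP

namespace LvA

variable {d : ℕ}

/-- the values on the real basis -/
def vals (d : ℕ) : Fo d →ₗ[ℂ] (Fin d × Bool) × Fin d × Bool → ℂ where
  toFun w i := bv w (bs i.1) (bs i.2)
  map_add' _ _ := funext fun _ => bv_add _ _ _ _
  map_smul' _ _ := funext fun _ => bv_smul _ _ _ _

theorem vals_apply (w : Fo d) (i) : vals d w i = bv w (bs i.1) (bs i.2) := rfl

theorem ex_inv {A B : Type} [AddCommGroup A] [Module ℂ A] [AddCommGroup B] [Module ℂ B]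
    (D : A →ₗ[ℂ] A) (Φ : A →ₗ[ℂ] B) (h : ∀ u, D u = u → Φ u = 0 → u = 0) :
    ∃ T : B →ₗ[ℂ] A, ∀ u, D u = u → T (Φ u) = u := by
  obtain ⟨G, hG⟩ := (Φ.comp (LinearMap.eqLocus D LinearMap.id).subtype).exists_leftInverse_of_injective
    (LinearMap.ker_eq_bot'.mpr fun w hw => Subtype.ext (h w.1 w.2 hw))
  exact ⟨(LinearMap.eqLocus D LinearMap.id).subtype.comp G, fun u hu =>
    congrArg Subtype.val (LinearMap.congr_fun hG ⟨u, hu⟩)⟩

end LvA

open LvA in
theorem smb : SMB := by
  intro d E _ _ u q hu hs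
  obtain ⟨T, hT⟩ := ex_inv (Matrix.mulVecLin (dg 2)) (vals d) fun w hw h0 =>
    zero_of (by rwa [Matrix.mulVecLin_apply] at hw) fun i i' => by
      rw [← vals_apply w (i, i'), h0, Pi.zero_apply]
  have h1 : ContDiffAt ℝ ∞ (fun r => vals d (u r)) q :=
    contDiffAt_pi.mpr fun i => by simpa only [vals_apply] using hs (bs i.1) (bs i.2)
  have h2 := ((LinearMap.toContinuousLinearMap T).restrictScalars ℝ).contDiff.contDiffAt.comp q h1
  refine h2.congr_of_eventuallyEq ?_
  filter_upwards [hu] with r hr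
  rw [Function.comp_apply, ContinuousLinearMap.coe_restrictScalars',
    LinearMap.coe_toContinuousLinearMap', hT _ (by rwa [Matrix.mulVecLin_apply])]

open LvA in
theorem typ : TYP := by
  intro d w s g σ H L hs hσ hdet _ hL htr h1 h2
  simp only [bv_f20 hs, bv_f20 hσ] at h2
  have hI : ∀ v, L (I • v) = I • L v := fun v => by
    have k : ∀ y, (L (I • v) - I • L v) ⬝ᵥ y = 0 := fun y => by
      obtain ⟨v', hv'⟩ := hL.2 (σ⁻¹ *ᵥ y)
      have e : y = σ *ᵥ L v' := by
        rw [hv', Matrix.mulVec_mulVec, Matrix.mul_nonsing_inv _ (Ne.isUnit hdet), Matrix.one_mulVec]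
      rw [e, sub_dotProduct, smul_dotProduct, ← h2, ← h2, smul_dotProduct, sub_self]
    exact sub_eq_zero.mp (dotProduct_eq_zero _ k)
  let Lc : Cm d →ₗ[ℂ] Cm d :=
    { toFun := L
      map_add' := L.map_add
      map_smul' := fun c v => by
        have e1 : ∀ x : Cm d, c • x = c.re • x + c.im • I • x := fun x => by
          conv_lhs => rw [← re_add_im c]
          rw [add_smul, mul_smul, coe_smul, coe_smul]
        rw [RingHom.id_apply, e1, e1, map_add, map_smul, map_smul, hI] }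
  obtain ⟨J, hJ⟩ : ∃ J : Mx d, ∀ v, L v = J *ᵥ v :=
    ⟨LinearMap.toMatrix' Lc, fun v => (LinearMap.toMatrix'_mulVec Lc v).symm⟩
  have hJu : IsUnit J := Matrix.mulVec_injective_iff_isUnit.mp fun a b hab =>
    hL.1 (by rw [hJ, hJ]; exact hab)
  have hJd := (Matrix.isUnit_iff_isUnit_det J).mp hJu
  have hJt : IsUnit Jᵀ.det := by rwa [Matrix.det_transpose]
  have hJc : IsUnit (J.map (starRingEnd ℂ)).det := isUnit_conj hJd
  have hw : w = Jᵀ * g * J.map (starRingEnd ℂ) := f11_inj fun v v' => by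
    rw [h1, bv_pull, hJ, hJ]
  refine ⟨Jᵀ * H * J.map (starRingEnd ℂ), ?_, fun v v' => by rw [bv_pull, hJ, hJ]⟩
  rw [hw, Matrix.mul_inv_rev, Matrix.mul_inv_rev, ← Matrix.mul_assoc, Matrix.trace_mul_comm]
  simp only [Matrix.mul_assoc]
  rw [Matrix.mul_nonsing_inv_cancel_left _ _ hJc, Matrix.nonsing_inv_mul_cancel_left _ _ hJt, htr]

end Vale.Agent.P301Z.Hl
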