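import Vale.Agent.P301Z.Hl.Defs
import Vale.Agent.P301Z.Dg.One

/-!
# P301, block HL: the formula of Cartan (row CAR)
-/

open scoped Manifold ContDiff ComplexOrder Topology Matrix
open Set Filter Complex
open Vale.Agent.P272.K Vale.Agent.P299.IX Vale.Agent.P299.IX.Fock
open Vale.Agent.P281Z (Mf)
open Vale.Agent.P281Z.Hg
open Vale.Agent.P301Z.Lat Vale.Agent.P301Z.Rot

noncomputable section

namespace Vale.Agent.P301Z.Hl

namespace CarH

variable {d : ℕ}

theorem fd_skew (u : Cm d → Fo d) (z a b c : Cm d) :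
    fderiv ℝ (fun w => bv (u w) b c) z a = -fderiv ℝ (fun w => bv (u w) c b) z a := by
  have e : (fun w => bv (u w) b c) = fun w => -bv (u w) c b := funext fun w => bv_skew _ _ _
  rw [e, fderiv_fun_neg, neg_apply]

theorem loc {u : Cm d → Fo d} {ξ : Cm d → Cm d} {z : Cm d} (hu : ContDiffAt ℝ ∞ u z)
    (h0 : dT u z = 0) (hξ : ContDiffAt ℝ ∞ ξ z) (v v' : Cm d) :
    Dg.dl (fun y => bL (u y) (ξ y)) z v v' = fderiv ℝ (fun y => bv (u y) v v') z (ξ z) +
      bv (u z) (fderiv ℝ ξ z v) v' + bv (u z) v (fderiv ℝ ξ z v') := by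
  have h1 : ContDiffAt ℝ 1 u z := hu.of_le (by norm_cast)
  have h2 := closed_bv (h1.differentiableAt one_ne_zero) h0 v (ξ z) v'
  rw [Dg.dl, fderiv_clm_apply ((bL_cd h1).differentiableAt one_ne_zero)
    (hξ.differentiableAt (by simp))]
  simp only [add_apply, ContinuousLinearMap.comp_apply, ContinuousLinearMap.flip_apply, bL_apply,
    bL_fd h1]
  rw [fd_skew u z (ξ z) v' v, fd_skew u z v' v (ξ z)] at h2
  rw [bv_skew (u z) v]
  linear_combination h2

end CarH

/-- row CAR -/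
theorem car : CAR := by
  intro d M u ξ hu h1 h2
  have h3 : ∀ e x, At e x → ContDiffAt ℝ ∞ (fun z => Dg.o1 (bL (vl u e z) (ξ e z))) (e x) :=
    fun e x h => Dg.one.o1_cd.contDiffAt.comp _
      ((bL_cd ((vl_isF u).sm e x h)).clm_apply (h1 e x h))
  obtain ⟨ι, hι⟩ := (g1T d M.X).mkf (fun e z => Dg.o1 (bL (vl u e z) (ξ e z))) h3
    fun e e' x h h' => by
      refine Eq.trans (congrArg Dg.o1 ?_)
        (Dg.one.o1_jc _ ((at_cd h h').differentiableAt (by simp))).symm
      ext1 v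
      rw [ContinuousLinearMap.comp_apply, bL_apply, bL_apply, bv_ch u h h', h2 e e' x h h']
  refine ⟨(dR M).d ι, ⟨ι, G2H.ext' fun e x h => ?_, rfl⟩, fun e x h v v' => ?_⟩
  · rw [(dR_real M).dg 1 ι e x h, (hι e x h).self_of_nhds, Dg.one.dg_o1]
  · rw [(dR_real M).d ι e x h, k1aT.congr (hι e x h),
      Dg.one.bv_dT v v' ((h3 e x h).differentiableAt (by simp))]
    simp only [Dg.one.lv_o1]
    exact CarH.loc ((vl_isF u).sm e x h) (cl_dT hu h) (h1 e x h) v v'

end Vale.Agent.P301Z.Hl
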