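import Vale.Agent.P301Z.Hl.Defs

/-!
# P301, block HL: small closed forms have small classes, the derivative of the class
-/

open scoped Manifold ContDiff Topology Matrix
open Set Filter Metric MeasureTheory Asymptotics
open Vale.Agent.P272.K Vale.Agent.P272.K.INT
open Vale.Agent.P281Z (Mf)
open Vale.Agent.P281Z.Hg
open Vale.Agent.P301Z.Lat

noncomputable section

namespace Vale.Agent.P301Z.Hl

namespace CbX

variable {d : ℕ} (V : Mf d)

theorem int_bd : ∃ m : ℝ, 0 ≤ m ∧ ∀ (D : Chart d V.X → Cm d → ℝ) (ε : ℝ),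
    (∀ i, ∀ x ∈ tsupport ((part d V.X).ρ i),
      |D ((part d V.X).e i) ((part d V.X).e i x)| ≤ ε) → |intX D| ≤ ε * m := by
  set P := part d V.X
  refine ⟨∑ i, ∫ z in (P.e i).target, P.ρ i ((P.e i).symm z), Finset.sum_nonneg fun i _ =>
    integral_nonneg fun z => P.nonneg i _, fun D ε h => ?_⟩
  rw [intX, Finset.mul_sum]
  refine (Finset.abs_sum_le_sum_abs _ _).trans (Finset.sum_le_sum fun i _ => ?_)
  have h1 : IntegrableOn (fun z => P.ρ i ((P.e i).symm z)) (P.e i).target :=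
    integrableOn_chart ((P.cont i).comp_continuousOn (P.e i).continuousOn_symm)
      (isClosed_tsupport _) (P.supp i) fun z _ hz => image_eq_zero_of_notMem_tsupport hz
  rw [← integral_const_mul, ← Real.norm_eq_abs]
  refine norm_integral_le_of_norm_le (h1.const_mul ε)
    (ae_restrict_of_forall_mem (P.e i).open_target.measurableSet fun z hz => ?_)
  rw [norm_mul, Real.norm_of_nonneg (P.nonneg i _), mul_comm]
  by_cases hx : (P.e i).symm z ∈ tsupport (P.ρ i)
  · have h2 := h i _ hx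
    rw [(P.e i).right_inv hz] at h2
    exact mul_le_mul_of_nonneg_right h2 (P.nonneg i _)
  · rw [image_eq_zero_of_notMem_tsupport hx, mul_zero, mul_zero]

theorem at_part (i : Fin (part d V.X).N) {x : V.X} (hx : x ∈ tsupport ((part d V.X).ρ i)) :
    At ((part d V.X).e i) x := ⟨(part d V.X).mem i, (part d V.X).supp i hx⟩

theorem vol_close (hL : LAT) (g : Fs V) {δ : ℝ} (hδ : 0 < δ) : ∃ ε > 0, ∀ u : Fs V,
    (∀ i, ∀ x ∈ tsupport ((part d V.X).ρ i),
      ‖vl u ((part d V.X).e i) ((part d V.X).e i x)‖ ≤ ε) → ‖Vol (g + u) - Vol g‖ ≤ δ := by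
  obtain ⟨m, hm, h⟩ := int_bd V
  set P := part d V.X
  have h1 : ∀ i, ∃ R : ℝ, ∀ x ∈ tsupport (P.ρ i), ‖vl g (P.e i) (P.e i x)‖ ≤ R := fun i =>
    (isClosed_tsupport _).isCompact.exists_bound_of_continuousOn fun x hx =>
      (((vl_isF g).sm _ x (at_part V i hx)).continuousAt.comp
        ((P.e i).continuousAt (P.supp i hx))).continuousWithinAt
  choose R hR using h1
  obtain ⟨R', hR'⟩ := (Set.finite_range R).bddAbove
  have h2 := (isCompact_closedBall (0 : Fo d) (R' + 1)).uniformContinuousOn_of_continuous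
    (hL.pwb.cont (d := d)).continuousOn
  obtain ⟨ε, hε, h3⟩ := Metric.uniformContinuousOn_iff_le.1 h2 (δ / (2 * (m + 1))) (by positivity)
  refine ⟨min ε 1, lt_min hε one_pos, fun u hu => ?_⟩
  have h4 : ∀ i, ∀ x ∈ tsupport (P.ρ i), ‖pw (vl (g + u) (P.e i) (P.e i x)) -
      pw (vl g (P.e i) (P.e i x))‖ ≤ δ / (2 * (m + 1)) := fun i x hx => by
    have k1 := (hR i x hx).trans (hR' ⟨i, rfl⟩)
    have k2 := hu i x hx
    rw [← dist_eq_norm, vl_add]
    refine h3 _ (mem_closedBall_zero_iff.2 ((norm_add_le _ _).trans ?_)) _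
      (mem_closedBall_zero_iff.2 (by linarith)) ?_
    · linarith [min_le_right ε 1]
    · rw [dist_eq_norm, add_sub_cancel_left]
      exact k2.trans (min_le_left _ _)
  have h5 := h (fun e z => (pw (vl (g + u) e z)).re - (pw (vl g e z)).re) _ fun i x hx =>
    (Complex.abs_re_le_norm (_ - _)).trans (h4 i x hx)
  have h6 := h (fun e z => (pw (vl (g + u) e z)).im - (pw (vl g e z)).im) _ fun i x hx =>
    (Complex.abs_im_le_norm (_ - _)).trans (h4 i x hx)
  rw [intX_sub (hL.vol.dens _).1 (hL.vol.dens _).1] at h5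
  rw [intX_sub (hL.vol.dens _).2 (hL.vol.dens _).2] at h6
  refine (Complex.norm_le_abs_re_add_abs_im _).trans ?_
  have h7 : δ / (2 * (m + 1)) * m ≤ δ / 2 := by
    rw [div_mul_eq_mul_div, div_le_div_iff₀ (by positivity) two_pos]
    nlinarith
  simp only [Vol, itg, Complex.sub_re, Complex.add_re, Complex.ofReal_re, Complex.mul_re,
    Complex.I_re, Complex.I_im, Complex.ofReal_im, Complex.sub_im, Complex.add_im, Complex.mul_im,
    zero_mul, mul_zero, sub_zero, add_zero, one_mul, zero_add]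
  linarith

variable {n r : ℕ} (B : BB n r)

theorem q_line (y w : Fin r → ℂ) (l : ℂ) : qC B.q (l • y + w) (l • y + w) =
    l ^ 2 * qC B.q y y + 2 * l * qC B.q y w + qC B.q w w := by
  have h : qC B.q w y = qC B.q y w := by
    rw [qC, qC, Finset.sum_comm]
    refine Finset.sum_congr rfl fun i _ => Finset.sum_congr rfl fun j _ => ?_
    rw [show B.q j i = B.q i j from congrFun (congrFun B.symm i) j, mul_comm (w j)]
  rw [two_mul, add_mul]
  nth_rewrite 2 [← h]
  simp only [qC, Finset.mul_sum, ← Finset.sum_add_distrib, Pi.add_apply, Pi.smul_apply,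
    smul_eq_mul]
  exact Finset.sum_congr rfl fun i _ => Finset.sum_congr rfl fun j _ => by ring

theorem real_zero {v : Fin r → ℝ} (h : ∀ y, qR B.q y v = 0) : v = 0 := by
  by_contra hv
  obtain ⟨e, -, he⟩ := B.sig
  refine (he v (fun i => ?_) hv).ne (h v)
  rw [← h (e i), qR, qR, Finset.sum_comm]
  refine Finset.sum_congr rfl fun a _ => Finset.sum_congr rfl fun b _ => ?_
  rw [show B.q b a = B.q a b from congrFun (congrFun B.symm a) b, mul_comm (v b)]

theorem alg {w : Fin r → ℂ} (h : ∀ y, qC B.q (y + w) (y + w) ^ n = qC B.q y y ^ n) : w = 0 := by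
  have hn := B.npos.ne'
  have h0 : qC B.q w w = 0 := by
    have h1 := h 0
    rw [zero_add, show qC B.q 0 0 = 0 by simp [qC], zero_pow hn] at h1
    exact pow_eq_zero_iff hn |>.1 h1
  have h1 : ∀ y, qC B.q y w = 0 := fun y => by
    have k : ∀ l : ℂ, (l ^ 2 * qC B.q y y + 2 * l * qC B.q y w) ^ n = (l ^ 2 * qC B.q y y) ^ n :=
      fun l => by
        have k1 := h (l • y)
        have k2 := q_line B y 0 l
        rw [add_zero, show qC B.q y 0 = 0 by simp [qC], show qC B.q 0 0 = 0 by simp [qC],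
          mul_zero, add_zero, add_zero] at k2
        rwa [q_line, h0, add_zero, k2] at k1
    by_contra hb
    by_cases ha : qC B.q y y = 0
    · have k1 := k 1
      rw [ha, mul_zero, zero_add, zero_pow hn, pow_eq_zero_iff hn] at k1
      exact hb (by simpa using k1)
    · have k1 := k (-2 * qC B.q y w / qC B.q y y)
      rw [show (-2 * qC B.q y w / qC B.q y y) ^ 2 * qC B.q y y +
        2 * (-2 * qC B.q y w / qC B.q y y) * qC B.q y w = 0 by field_simp; ring, zero_pow hn,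
        eq_comm, pow_eq_zero_iff hn] at k1
      exact mul_ne_zero (pow_ne_zero _ (div_ne_zero (mul_ne_zero (by norm_num) hb) ha)) ha k1
  have h2 := real_zero B (v := fun i => (w i).re) fun y => by
    have k := congrArg Complex.re (h1 (rc y))
    simpa [qC, qR, rc, Complex.re_sum] using k
  have h3 := real_zero B (v := fun i => (w i).im) fun y => by
    have k := congrArg Complex.im (h1 (rc y))
    simpa [qC, qR, rc, Complex.im_sum] using k
  exact funext fun i => Complex.ext (congrFun h2 i) (congrFun h3 i)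

theorem cont_q : Continuous fun y : Fin r → ℂ => qC B.q y y := by
  unfold qC
  fun_prop

variable {V}

theorem cl_lin {u v : Fs V} (hu : Cl2 V u) (hv : Cl2 V v) (c : ℂ) : Cl2 V (u + c • v) :=
  ⟨by rw [map_add, map_smul, hu.1, hv.1, smul_zero, add_zero],
    by rw [map_add, map_smul, hu.2, hv.2]⟩

theorem cl_zero : Cl2 V 0 := ⟨map_zero _, map_zero _⟩

theorem unif {E F W : Type} [NormedAddCommGroup E] [NormedSpace ℝ E] [NormedAddCommGroup F]
    [NormedSpace ℝ F] [NormedAddCommGroup W] [NormedSpace ℝ W] {f : E × F → W} {t : E} {z : F}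
    (hf : ContDiffAt ℝ ∞ f (t, z)) (τ : E) {δ : ℝ} (hδ : 0 < δ) :
    ∀ᶠ q : ℝ × F in 𝓝 (0, z), ‖f (t + q.1 • τ, q.2) - f (t, q.2) -
      q.1 • fderiv ℝ f (t, q.2) (τ, 0)‖ ≤ δ * ‖q.1‖ := by
  have hδ' : 0 < δ / (2 * (‖τ‖ + 1)) := by positivity
  have h1 := (hf.hasStrictFDerivAt (by simp)).isLittleO.bound hδ'
  have c1 : Tendsto (fun q : ℝ × F => ((t + q.1 • τ, q.2), (t, q.2))) (𝓝 (0, z))
      (𝓝 ((t, z), (t, z))) := by
    have : Continuous fun q : ℝ × F => ((t + q.1 • τ, q.2), (t, q.2)) := by fun_prop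
    simpa using this.tendsto (0, z)
  have c2 : Tendsto (fun q : ℝ × F => fderiv ℝ f (t, q.2)) (𝓝 (0, z)) (𝓝 (fderiv ℝ f (t, z))) :=
    (hf.continuousAt_fderiv (by simp)).tendsto.comp
      ((by fun_prop : Continuous fun q : ℝ × F => (t, q.2)).tendsto (0, z))
  filter_upwards [c1.eventually h1, c2.eventually (closedBall_mem_nhds _ hδ')] with q k1 k2
  have e1 : ((t + q.1 • τ, q.2) - (t, q.2) : E × F) = q.1 • (τ, 0) := by simp
  have e2 : ‖(q.1 • (τ, 0) : E × F)‖ = ‖q.1‖ * ‖τ‖ := by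
    rw [norm_smul, Prod.norm_def, norm_zero, max_eq_left (norm_nonneg _)]
  simp only [e1, e2] at k1
  have k3 := (fderiv ℝ f (t, z) - fderiv ℝ f (t, q.2)).le_of_opNorm_le
    (c := δ / (2 * (‖τ‖ + 1))) (by rwa [← dist_eq_norm, dist_comm]) (q.1 • (τ, 0))
  rw [e2, _root_.sub_apply] at k3
  have k4 := norm_add_le_of_le k1 k3
  rw [sub_add_sub_cancel, map_smul] at k4
  refine k4.trans ?_
  have k5 : δ / (2 * (‖τ‖ + 1)) * ‖τ‖ ≤ δ / 2 := by
    rw [div_mul_eq_mul_div, div_le_div_iff₀ (by positivity) two_pos]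
    nlinarith [norm_nonneg τ]
  nlinarith [norm_nonneg q.1]

end CbX

open CbX

theorem cb_of (hL : LAT) : CB := by
  intro n r B M
  set P := part (n + n) M.V.X
  suffices h : ∃ C : ℝ, ∀ (u : Fs M.V) (ε : ℝ), Cl2 M.V u → 0 ≤ ε →
      (∀ i, ∀ x ∈ tsupport (P.ρ i), ‖vl u (P.e i) (P.e i x)‖ ≤ ε) → ‖M.m.c u‖ ≤ C * ε by
    obtain ⟨C, hC⟩ := h
    exact ⟨P.N, P.e, fun i => tsupport (P.ρ i), C, fun i => (isClosed_tsupport _).isCompact,
      fun i x hx => at_part M.V i hx, hC⟩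
  by_contra! h
  have h1 : ∀ m : ℕ, ∃ u : Fs M.V, Cl2 M.V u ∧ M.m.c u ∈ sphere (0 : Fin r → ℂ) 1 ∧
      ∀ i, ∀ x ∈ tsupport (P.ρ i), ‖vl u (P.e i) (P.e i x)‖ ≤ 1 / ((m : ℝ) + 1) := fun m => by
    obtain ⟨u, ε, k1, k2, k3, k4⟩ := h ((m : ℝ) + 1)
    have k5 : 0 < ‖M.m.c u‖ := lt_of_le_of_lt (by positivity) k4
    have k6 : ‖((‖M.m.c u‖⁻¹ : ℝ) : ℂ)‖ = ‖M.m.c u‖⁻¹ := by simp
    refine ⟨0 + ((‖M.m.c u‖⁻¹ : ℝ) : ℂ) • u, cl_lin cl_zero k1 _, ?_, fun i x hx => ?_⟩
    · rw [zero_add, map_smul, mem_sphere_zero_iff_norm, norm_smul, k6, inv_mul_cancel₀ k5.ne']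
    · rw [zero_add, vl_smul, norm_smul, k6, inv_mul_le_iff₀ k5, mul_one_div,
        le_div_iff₀ (by positivity)]
      nlinarith [k3 i x hx]
  choose u h2 h3 h4 using h1
  obtain ⟨w, hw, φ, hφ, h5⟩ := (isCompact_sphere (0 : Fin r → ℂ) 1).tendsto_subseq h3
  have h6 : w = 0 := alg B fun y => by
    obtain ⟨g, hg, rfl⟩ := M.m.onto y
    have k1 : Tendsto (fun m => Vol (g + u (φ m))) atTop (𝓝 (Vol g)) := by
      refine Metric.tendsto_nhds.2 fun δ hδ => ?_
      obtain ⟨ε, hε, k⟩ := vol_close M.V hL g (half_pos hδ)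
      filter_upwards [(tendsto_one_div_add_atTop_nhds_zero_nat.comp hφ.tendsto_atTop).eventually
        (ge_mem_nhds hε)] with m hm
      rw [dist_eq_norm]
      exact (k _ fun i x hx => (h4 _ i x hx).trans hm).trans_lt (half_lt_self hδ)
    have k2 : Tendsto (fun m => Vol (g + u (φ m))) atTop
        (𝓝 ((B.C : ℂ) * qC B.q (M.m.c g + w) (M.m.c g + w) ^ n)) := by
      refine ((((cont_q B).tendsto _).comp (h5.const_add (M.m.c g))).pow n).const_mul _ |>.congr
        fun m => ?_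
      have k3 := cl_lin hg (h2 (φ m)) 1
      rw [one_smul] at k3
      rw [M.fuj _ k3, map_add]
      rfl
    have k4 := tendsto_nhds_unique k2 k1
    rw [M.fuj g hg] at k4
    exact mul_left_cancel₀ (Complex.ofReal_ne_zero.2 B.Cpos.ne') k4
  rw [h6, mem_sphere_zero_iff_norm, norm_zero] at hw
  exact zero_ne_one hw

theorem cls_of (hC : CB) : CLS := by
  intro n r p B M N η η' hN hη t ht τ h1 h2
  obtain ⟨A, e, K, C, k1, k2, k3⟩ := hC n r B M
  rw [hasDerivAt_iff_isLittleO_nhds_zero]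
  refine isLittleO_iff.2 fun δ hδ => ?_
  have hδ' : 0 < δ / (|C| + 1) := by positivity
  have c1 : ∀ᶠ s : ℝ in 𝓝 0, t + s • τ ∈ N := by
    have : Continuous fun s : ℝ => t + s • τ := by fun_prop
    exact this.continuousAt.eventually (hN.mem_nhds (by simpa using ht))
  have c2 : ∀ᶠ s : ℝ in 𝓝 0, ∀ i, ∀ x ∈ K i, ‖vq η (e i) (t + s • τ, e i x) -
      vq η (e i) (t, e i x) - s • fderiv ℝ (vq η (e i)) (t, e i x) (τ, 0)‖ ≤
      δ / (|C| + 1) * ‖s‖ :=
    eventually_all.2 fun i => (k1 i).eventually_forall_of_forall_eventually fun x hx => by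
      have c3 : Tendsto (fun q : ℝ × M.V.X => (q.1, e i q.2)) (𝓝 (0, x)) (𝓝 (0, e i x)) :=
        ContinuousAt.prodMk (f := fun q : ℝ × M.V.X => q.1) (g := fun q : ℝ × M.V.X => e i q.2)
          continuousAt_fst (((e i).continuousAt (k2 i x hx).2).comp_of_eq continuousAt_snd rfl)
      exact c3.eventually (unif (hη.sm t ht _ x (k2 i x hx)) τ hδ')
  filter_upwards [c1, c2] with s l1 l2
  have l3 := k3 (η (t + s • τ) + (-1 : ℂ) • η t + (-(s : ℂ)) • η') (δ / (|C| + 1) * ‖s‖)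
    (cl_lin (cl_lin (hη.cl _ l1) (hη.cl t ht) _) h1 _) (by positivity) fun i x hx => by
      have l4 := l2 i x hx
      rw [← h2 _ x (k2 i x hx)] at l4
      rw [vl_add, vl_add, vl_smul, vl_smul, neg_smul, neg_smul, one_smul, ← sub_eq_add_neg,
        ← sub_eq_add_neg, Complex.coe_smul]
      exact l4
  rw [map_add, map_add, map_smul, map_smul, neg_smul, neg_smul, one_smul, ← sub_eq_add_neg,
    ← sub_eq_add_neg, Complex.coe_smul] at l3
  simp only [zero_add, zero_smul, add_zero]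
  refine l3.trans ?_
  have l5 : C * (δ / (|C| + 1)) ≤ δ := by
    rw [← mul_div_assoc, div_le_iff₀ (by positivity)]
    nlinarith [le_abs_self C]
  nlinarith [norm_nonneg s]

end Vale.Agent.P301Z.Hl
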