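import Vale.Agent.P301Z.Hl.Defs
import Vale.Agent.P301Z.Dg.Fm2

/-!
# P301, block HL: the derivative and the Lie derivative of a family of closed forms
-/

open scoped Manifold ContDiff ComplexOrder Topology Matrix
open Set Filter Metric Complex Function
open Vale.Agent.P272.K Vale.Agent.P299.IX Vale.Agent.P299.IX.Fock
open Vale.Agent.P281Z (Mf)
open Vale.Agent.P281Z.Hg
open Vale.Agent.P301Z.Lat Vale.Agent.P301Z.Rot
open Vale.Agent.P301Z.An.Cnn (has_fst has_snd)

noncomputable section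

namespace Vale.Agent.P301Z.Hl

theorem der : DER := by
  intro d p M N η hN h t ht τ
  obtain ⟨z, h1, -, -, -, h2⟩ := Dg.fm2.der η N τ hN h.sm
  have df : ∀ e x, At e x → DifferentiableAt ℝ (vq η e) (t, e x) := fun e x hx =>
    (h.sm t ht e x hx).differentiableAt (by simp)
  refine ⟨z t, ⟨ext_F fun e x hx => ?_, ext_F fun e x hx => ?_⟩, fun e x hx => ?_⟩
  · have k : (fun t => vl ((dR M).d (η t)) e (e x)) =ᶠ[𝓝 t] fun _ => 0 := by
      filter_upwards [hN.mem_nhds ht] with t' k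
      rw [(h.cl t' k).1, vl_zero]
    rw [h2 t ht e x hx, k.fderiv_eq, fderiv_fun_const, vl_zero]
    rfl
  · obtain ⟨D, k1, k2⟩ := Dg.Fm2.has_mv (dg 2) (has_fst (df e x hx)).differentiableAt
    rw [(dR_real M).dg 2 _ e x hx, h1 t ht e x hx]
    refine (k2 τ).symm.trans ?_
    rw [← k1.fderiv]
    refine congrArg (fun L : Cm p →L[ℝ] Fo d => L τ) (EventuallyEq.fderiv_eq ?_)
    filter_upwards [hN.mem_nhds ht] with t' k
    exact (h.cl t' k).dg hx
  · rw [h1 t ht e x hx]
    exact congrArg (fun L : Cm p →L[ℝ] Fo d => L τ) (has_fst (df e x hx)).fderiv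

/-- the value on two vectors as a linear map -/
def Der.bvL {d : ℕ} (v v' : Cm d) : Fo d →L[ℝ] ℂ := (LinearMap.toContinuousLinearMap
  (⟨⟨fun u => bv u v v', fun u u' => bv_add u u' v v'⟩, fun c u => bv_smul c u v v'⟩ :
    Fo d →ₗ[ℂ] ℂ)).restrictScalars ℝ

theorem lie_of (hD : DER) (hC : CAR) (hS : CLS) : LIE := by
  intro n r p B M N η X hN h hX t ht τ
  obtain ⟨η', c1, h1⟩ := hD _ p M.V N η hN h t ht τ
  obtain ⟨β, c2, h2⟩ := hC _ M.V (η t) (fun e z => X e (t, z)) (h.cl t ht)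
    (fun e x hx => ContDiffAt.comp (e x) (g := X e) (f := fun z => (t, z)) (hX.sm t ht e x hx)
      (contDiffAt_const.prodMk contDiffAt_id)) (hX.ch t ht)
  refine ⟨η' + β, c1.add c2.cl, fun e x hx v v' => ?_, ?_⟩
  · have d1 := (h.sm t ht e x hx).differentiableAt (by simp)
    have d2 := (hX.sm t ht e x hx).differentiableAt (by simp)
    have k1 : HasFDerivAt (fun q => bv (vq η e q) v v') _ (t, e x) :=
      (Der.bvL v v').hasFDerivAt.comp _ d1.hasFDerivAt
    have k2 : fderiv ℝ (fun z => bv (vl (η t) e z) v v') (e x) = _ :=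
      (has_snd k1.differentiableAt).fderiv
    have k3 : fderiv ℝ (fun z => X e (t, z)) (e x) = _ := (has_snd d2).fderiv
    have k4 : ((τ, X e (t, e x)) : Cm p × Cm (n + n)) = (τ, 0) + (0, X e (t, e x)) := by simp
    rw [vl_add, bv_add, h1 e x hx, h2 e x hx, k2, k3, lie, k4, map_add, k1.fderiv]
    exact (add_assoc _ _ _).symm.trans (congrArg₂ (· + ·) (add_assoc _ _ _).symm rfl)
  · rw [map_add, (M.m.ker β c2.cl).2 c2, add_zero]
    exact hS n r p B M N η η' hN h t ht τ c1 h1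

end Vale.Agent.P301Z.Hl
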