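import Vale.Agent.P301Z.Hl.Defs
import Vale.Agent.P301Z.Pt.Ret
import Vale.Agent.P301Z.Rot.R0

/-!
# P301, block HL: row FIB
-/

namespace Vale.Agent.P301Z.Hl

theorem fib : FIB := fun n r B F k D V W c t₀ δ L t ht => by
  have he := L.emb t ht
  choose ζ hζ using fun z => he.ex (y := L.Θ t z) ⟨(L.h1 t ht z).1, (L.h1 t ht z).2.1⟩
  have h1 : ∀ z, Pt.SmP (n + n) (n + n) ζ z := fun z => by
    refine Pt.smP_lift he ?_
    simp only [hζ]
    exact ⟨(L.Θc t ht z).comp (f := fun z => (t, z)) (by fun_prop), fun e e' h h' =>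
      (L.Θs t ht z e e' h h').comp (f := fun z => (t, z)) _ (by fun_prop)⟩
  have h2 : ∀ y, ζ (L.Ψ ((L.Φ t).i y)) = y := fun y => he.inj (by
    have h3 := L.h2 _ (he.mem y).1
    rw [(he.mem y).2] at h3
    rw [hζ, h3])
  exact ⟨ζ, h2, fun z => (congrArg L.Ψ (hζ z)).trans (L.h1 t ht z).2.2,
    Rot.mor_inv (Pt.smo_of h1) (L.mor t ht) h2, hζ⟩

end Vale.Agent.P301Z.Hl
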