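import Vale.Agent.P301Z.Hl.Defs
import Vale.Agent.P255.Ode

/-!
# P301, block HL: the flow of a time dependent vector field on a compact manifold
-/

open scoped Manifold ContDiff Topology
open Set Filter Metric Function
open Vale.Agent.P272.K
open Vale.Agent.P281Z (Mf)
open Vale.Agent.P281Z.Hg
open Vale.Agent.P301Z.Rot

noncomputable section

namespace Vale.Agent.P301Z.Hl

namespace Flw

variable {d p : ℕ} {M : Mf d} {N : Set (Cm p)} {X : Chart d M.X → Cm p × Cm d → Cm d}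
  {t τ : Cm p} {γ γ' : ℝ → M.X} {u : ℝ}

/-- `γ` solves the equation at the time `u` -/
def Sol (X : Chart d M.X → Cm p × Cm d → Cm d) (t τ : Cm p) (γ : ℝ → M.X) (u : ℝ) : Prop :=
  ContinuousAt γ u ∧ ∀ e : Chart d M.X, At e (γ u) →
    HasDerivAt (fun u' => e (γ u')) (X e (t + u • τ, e (γ u))) u

theorem atc (x : M.X) : At (chartAt (Cm d) x) x := ⟨chart_mem_atlas _ _, mem_chart_source _ _⟩

theorem sol_of (hX : VF N X) (hu : t + u • τ ∈ N) (hc : ContinuousAt γ u) {e : Chart d M.X}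
    (he : At e (γ u)) (hd : HasDerivAt (fun u' => e (γ u')) (X e (t + u • τ, e (γ u))) u) :
    Sol X t τ γ u := by
  refine ⟨hc, fun e' he' => ?_⟩
  rw [hX.ch _ hu e e' _ he he']
  refine (((at_cd he he').differentiableAt (by simp)).hasFDerivAt.comp_hasDerivAt u
    hd).congr_of_eventuallyEq ?_
  filter_upwards [hc.eventually_mem (e.open_source.mem_nhds he.2)] with a ha
  simp only [comp, trn, e.left_inv ha]

theorem Sol.congr (h : Sol X t τ γ u) (k : γ' =ᶠ[𝓝 u] γ) : Sol X t τ γ' u := by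
  refine ⟨h.1.congr k.symm, fun e he => ?_⟩
  rw [k.self_of_nhds] at he ⊢
  exact (h.2 e he).congr_of_eventuallyEq (k.mono fun a ha => by simp only [ha])

theorem uniq_loc (hX : VF N X) (hu : t + u • τ ∈ N) (h : ∀ᶠ a in 𝓝 u, Sol X t τ γ a)
    (h' : ∀ᶠ a in 𝓝 u, Sol X t τ γ' a) (k : γ u = γ' u) : γ =ᶠ[𝓝 u] γ' := by
  obtain ⟨e, he⟩ : ∃ e : Chart d M.X, At e (γ u) := ⟨_, atc _⟩
  have c1 : ContDiffAt ℝ 1 (fun y : ℝ × Cm d => X e (t + y.1 • τ, y.2)) (u, e (γ u)) :=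
    ((hX.sm _ hu e _ he).of_le (by simp)).comp (u, e (γ u))
      (f := fun y : ℝ × Cm d => (t + y.1 • τ, y.2)) (by fun_prop)
  obtain ⟨K, T, hT, hK⟩ := c1.exists_lipschitzOnWith
  have key : ∀ g : ℝ → M.X, (∀ᶠ a in 𝓝 u, Sol X t τ g a) → g u = γ u →
      (∀ᶠ a in 𝓝 u, g a ∈ e.source) ∧ ∀ᶠ a in 𝓝 u, HasDerivAt (fun a => e (g a))
        (X e (t + a • τ, e (g a))) a ∧ e (g a) ∈ {z | (a, z) ∈ T} := by
    intro g hg kg
    have m : ∀ᶠ a in 𝓝 u, g a ∈ e.source :=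
      hg.self_of_nhds.1.eventually_mem (e.open_source.mem_nhds (kg ▸ he.2))
    have c2 : ContinuousAt (fun a => (a, e (g a))) u :=
      continuousAt_id.prodMk ((e.continuousAt (kg ▸ he.2)).comp hg.self_of_nhds.1)
    refine ⟨m, ?_⟩
    filter_upwards [m, hg, c2.eventually_mem (kg ▸ hT)] with a a1 a2 a3
    exact ⟨a2.2 e ⟨he.1, a1⟩, a3⟩
  obtain ⟨m1, d1⟩ := key γ h rfl
  obtain ⟨m2, d2⟩ := key γ' h' k.symm
  have q := ODE_solution_unique_of_eventually (K := K) (v := fun a z => X e (t + a • τ, z))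
    (s := fun a => {z | (a, z) ∈ T}) (Eventually.of_forall fun a z hz z' hz' => by
      simpa [Prod.edist_eq] using hK hz hz') d1 d2 (by rw [k])
  filter_upwards [q, m1, m2] with a a1 a2 a3 using e.injOn a2 a3 a1

theorem uniq (hX : VF N X) {a b s : ℝ} (hN : ∀ u ∈ Ioo a b, t + u • τ ∈ N)
    (h : ∀ u ∈ Ioo a b, Sol X t τ γ u) (h' : ∀ u ∈ Ioo a b, Sol X t τ γ' u) (hs : s ∈ Ioo a b)
    (k : γ s = γ' s) : ∀ u ∈ Ioo a b, γ u = γ' u := by
  have loc : ∀ u ∈ Ioo a b, γ u = γ' u → γ =ᶠ[𝓝 u] γ' := fun u hu =>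
    uniq_loc hX (hN u hu) (mem_of_superset (isOpen_Ioo.mem_nhds hu) h)
      (mem_of_superset (isOpen_Ioo.mem_nhds hu) h')
  have q : Ioo a b ⊆ {u | γ =ᶠ[𝓝 u] γ'} :=
    isPreconnected_Ioo.subset_of_closure_inter_subset isOpen_setOfPred_eventually_nhds
      ⟨s, hs, loc s hs k⟩ fun u hu => loc u hu.2 (tendsto_nhds_unique_of_frequently_eq
        (h u hu.2).1 (h' u hu.2).1
        ((mem_closure_iff_frequently.1 hu.1).mono fun _ hx => hx.self_of_nhds))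
  exact fun u hu => (q hu).self_of_nhds

/-- `F` is a smooth family of solutions near `q` -/
structure Gd (N : Set (Cm p)) (X : Chart d M.X → Cm p × Cm d → Cm d) (t τ : Cm p)
    (F : (ℝ × ℝ) × M.X → M.X) (q : (ℝ × ℝ) × M.X) : Prop where
  mem : t + q.1.1 • τ ∈ N
  ini : F ((q.1.2, q.1.2), q.2) = q.2
  cont : ContinuousAt F q
  sm : ∀ e e' : Chart d M.X, At e q.2 → At e' (F q) →
    ContDiffAt ℝ ∞ (fun r : (ℝ × ℝ) × Cm d => e' (F (r.1, e.symm r.2))) (q.1, e q.2)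
  sol : Sol X t τ (fun u => F ((u, q.1.2), q.2)) q.1.1

theorem Gd.congr {F F' : (ℝ × ℝ) × M.X → M.X} {q : (ℝ × ℝ) × M.X} (h : Gd N X t τ F q)
    (k : F' =ᶠ[𝓝 q] F) (i : F' ((q.1.2, q.1.2), q.2) = q.2) : Gd N X t τ F' q := by
  refine ⟨h.mem, i, h.cont.congr k.symm, fun e e' he he' => ?_, h.sol.congr ?_⟩
  · refine (h.sm e e' he (k.self_of_nhds ▸ he')).congr_of_eventuallyEq ?_
    have c : ContinuousAt (fun r : (ℝ × ℝ) × Cm d => (r.1, e.symm r.2)) (q.1, e q.2) :=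
      continuousAt_fst.prodMk ((e.continuousAt_symm (e.map_source he.2)).comp
        (f := fun r : (ℝ × ℝ) × Cm d => r.2) (x := (q.1, e q.2)) continuousAt_snd)
    have c' := c.tendsto
    simp only [e.left_inv he.2] at c'
    filter_upwards [c'.eventually k] with r hr using by rw [hr]
  · have c : ContinuousAt (fun u : ℝ => ((u, q.1.2), q.2)) q.1.1 := by fun_prop
    exact c.tendsto.eventually k

theorem box (hN : IsOpen N) (hX : VF N X) (ht : t ∈ N) (τ : Cm p) (x₀ : M.X) :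
    ∃ F, ∀ᶠ q in 𝓝 (((0 : ℝ), (0 : ℝ)), x₀), Gd N X t τ F q := by
  obtain ⟨e, he⟩ : ∃ e : Chart d M.X, At e x₀ := ⟨_, atc _⟩
  have c0 : Continuous fun y : ℝ × Cm d => t + y.1 • τ := by fun_prop
  obtain ⟨ε, hε, W, hW, m, Φ, h0, h1, h2⟩ := P255.exists_flow_smooth
    (fun y : ℝ × Cm d => ((1 : ℝ), X e (t + y.1 • τ, y.2)))
    {y | t + y.1 • τ ∈ N ∧ y.2 ∈ e.target}
    ((hN.preimage c0).inter (e.open_target.preimage continuous_snd))
    (fun y hy => ContDiffAt.contDiffWithinAt (contDiffAt_const.prodMk (by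
      have k := hX.sm _ hy.1 e _ ⟨he.1, e.map_target hy.2⟩
      rw [e.right_inv hy.2] at k
      exact k.comp y (f := fun y : ℝ × Cm d => (t + y.1 • τ, y.2)) (by fun_prop))))
    (0, e x₀) ⟨by simpa using ht, e.map_source he.2⟩
  have f1 : ∀ y ∈ W, ∀ a ∈ Ioo (-ε) ε, (Φ a y).1 = y.1 + a := fun y hy => by
    have k : ∀ a ∈ Ioo (-ε) ε, HasDerivAt (fun a => (Φ a y).1) 1 a := fun a ha =>
      (hasFDerivAt_fst.comp_hasDerivAt a (h1 y hy a ha).2 :)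
    exact isOpen_Ioo.eqOn_of_deriv_eq isPreconnected_Ioo
      (fun a ha => (k a ha).differentiableAt.differentiableWithinAt) (by fun_prop)
      (fun a ha => by rw [(k a ha).deriv]; simp) ⟨neg_lt_zero.2 hε, hε⟩ (by simp [h0 y hy])
  refine ⟨fun q => e.symm (Φ (q.1.1 - q.1.2) (q.1.2, e q.2)).2, ?_⟩
  have c1 : ContinuousAt (fun q : (ℝ × ℝ) × M.X => (q.1.2, e q.2)) ((0, 0), x₀) :=
    (by fun_prop : ContinuousAt (fun q : (ℝ × ℝ) × M.X => q.1.2) _).prodMk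
      ((e.continuousAt he.2).comp continuousAt_snd)
  have c2 : ContinuousAt (fun q : (ℝ × ℝ) × M.X => q.1.1 - q.1.2) ((0, 0), x₀) := by fun_prop
  filter_upwards [c1.eventually_mem (hW.mem_nhds m),
    c2.eventually_mem (isOpen_Ioo.mem_nhds (by simpa using hε : _ ∈ Ioo (-ε) ε)),
    continuousAt_snd.eventually_mem (e.open_source.mem_nhds he.2)]
  rintro ⟨⟨u, s⟩, x⟩ a1 a2 a3
  obtain ⟨⟨b1, b2⟩, b3⟩ := h1 _ a1 _ a2
  have b4 : (Φ (u - s) (s, e x)).1 = u := by rw [f1 _ a1 _ a2]; simp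
  rw [b4] at b1
  have g : ContDiffAt ℝ ∞ (fun r : (ℝ × ℝ) × Cm d => (Φ (r.1.1 - r.1.2) (r.1.2, r.2)).2)
      ((u, s), e x) :=
    contDiffAt_snd.comp _ ((h2.contDiffAt ((isOpen_Ioo.prod hW).mem_nhds ⟨a2, a1⟩)).comp
      ((u, s), e x) (f := fun r : (ℝ × ℝ) × Cm d => (r.1.1 - r.1.2, (r.1.2, r.2))) (by fun_prop))
  have g' : ContinuousAt (fun q : (ℝ × ℝ) × M.X => (Φ (q.1.1 - q.1.2) (q.1.2, e q.2)).2)
      ((u, s), x) :=
    g.continuousAt.comp (f := fun q : (ℝ × ℝ) × M.X => (q.1, e q.2)) (x := ((u, s), x))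
      (continuousAt_fst.prodMk ((e.continuousAt a3).comp continuousAt_snd))
  have c := (e.continuousAt_symm b2).comp
    (f := fun q : (ℝ × ℝ) × M.X => (Φ (q.1.1 - q.1.2) (q.1.2, e q.2)).2) g'
  have hF : At e (e.symm (Φ (u - s) (s, e x)).2) := ⟨he.1, e.map_target b2⟩
  have cu : ContinuousAt (fun u : ℝ => ((u, s), x)) u := by fun_prop
  refine ⟨b1, by simp only [sub_self, h0 _ a1, e.left_inv a3], c, fun e₁ e₂ k₁ k₂ => ?_,
    sol_of hX b1 (c.comp (f := fun u : ℝ => ((u, s), x)) cu) hF ?_⟩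
  · have k3 := at_cd hF k₂
    have k4 : ContDiffAt ℝ ∞ (fun r : (ℝ × ℝ) × Cm d => (r.1, trn e₁ e r.2)) ((u, s), e₁ x) :=
      contDiffAt_fst.prodMk ((at_cd k₁ ⟨he.1, a3⟩).comp ((u, s), e₁ x)
        (f := fun r : (ℝ × ℝ) × Cm d => r.2) contDiffAt_snd)
    rw [e.right_inv b2] at k3
    rw [← trn_at e k₁.2] at g k3
    have k5 := g.comp ((u, s), e₁ x) (f := fun r : (ℝ × ℝ) × Cm d => (r.1, trn e₁ e r.2)) k4
    exact (k3.comp ((u, s), e₁ x) (f := fun r : (ℝ × ℝ) × Cm d =>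
      (Φ (r.1.1 - r.1.2) (r.1.2, trn e₁ e r.2)).2) k5 :)
  · have k : HasDerivAt (fun a => (Φ (a - s) (s, e x)).2) _ u :=
      HasDerivAt.comp_sub_const u s (hasFDerivAt_snd.comp_hasDerivAt _ b3 :)
    simp only [e.right_inv b2]
    rw [b4] at k
    refine k.congr_of_eventuallyEq ?_
    filter_upwards [(g'.comp (f := fun u : ℝ => ((u, s), x)) cu).eventually_mem
      (e.open_target.mem_nhds b2)] with a ha using e.right_inv ha

theorem glob (hN : IsOpen N) (hX : VF N X) (ht : t ∈ N) (τ : Cm p) : ∃ ε : ℝ, 0 < ε ∧ ∃ G,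
    ∀ u ∈ Ioo (-ε) ε, ∀ s ∈ Ioo (-ε) ε, ∀ x, Gd N X t τ G ((u, s), x) := by
  have k : ∀ᶠ ε in 𝓝 (0 : ℝ), ∀ x ∈ (univ : Set M.X), ∃ F O, IsOpen O ∧ x ∈ O ∧
      ∀ u ∈ Ioo (-ε) ε, ∀ s ∈ Ioo (-ε) ε, ∀ y ∈ O, Gd N X t τ F ((u, s), y) := by
    refine isCompact_univ.eventually_forall_of_forall_eventually fun x₀ _ => ?_
    obtain ⟨F, hF⟩ := box hN hX ht τ x₀
    obtain ⟨A, hA, O', hO', h⟩ := mem_nhds_prod_iff.1 hF
    obtain ⟨O, hO, oO, mO⟩ := mem_nhds_iff.1 hO'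
    obtain ⟨δ, hδ, hb⟩ := Metric.mem_nhds_iff.1 hA
    filter_upwards [prod_mem_nhds (Iio_mem_nhds hδ) (oO.mem_nhds mO)] with z hz
    refine ⟨F, O, oO, hz.2, fun u hu s hs y hy => h ⟨hb ?_, hO hy⟩⟩
    have := hz.1
    simp only [mem_ball, Prod.dist_eq, dist_zero_right, Real.norm_eq_abs, max_lt_iff, abs_lt,
      mem_Iio] at this ⊢
    exact ⟨⟨by linarith [hu.1], by linarith [hu.2]⟩, by linarith [hs.1], by linarith [hs.2]⟩
  obtain ⟨ε, hk, hε⟩ := ((k.filter_mono nhdsWithin_le_nhds).and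
    (self_mem_nhdsWithin (s := Ioi (0 : ℝ)))).exists
  choose F O oO mO h using fun x => hk x (mem_univ x)
  refine ⟨ε, hε, fun q => F q.2 q, fun u hu s hs x =>
    (h x u hu s hs x (mO x)).congr ?_ (h x s hs s hs x (mO x)).ini⟩
  filter_upwards [prod_mem_nhds (prod_mem_nhds (isOpen_Ioo.mem_nhds hu) (isOpen_Ioo.mem_nhds hs))
    ((oO x).mem_nhds (mO x))]
  rintro ⟨⟨a, b⟩, y⟩ ⟨⟨ha, hb⟩, hy⟩
  exact uniq hX (γ := fun a => F y ((a, b), y)) (γ' := fun a => F x ((a, b), y))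
    (fun a ha => (h y a ha b hb y (mO y)).mem) (fun a ha => (h y a ha b hb y (mO y)).sol)
    (fun a ha => (h x a ha b hb y hy).sol) hb
    ((h y b hb b hb y (mO y)).ini.trans (h x b hb b hb y hy).ini.symm) a ha

end Flw

open Flw in
theorem flow : FLOW := by
  intro d p M N X hN hX t ht τ
  obtain ⟨ε₀, hε₀, G₀, h₀⟩ := glob hN hX ht τ
  have c : ContinuousAt (fun u : ℝ => t + u • τ) 0 := by fun_prop
  obtain ⟨δ, hδ, hb⟩ := Metric.mem_nhds_iff.1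
    (c.preimage_mem_nhds (by simpa using hN.mem_nhds ht : N ∈ _))
  obtain ⟨ε, hε, G, hm, h⟩ : ∃ ε : ℝ, 0 < ε ∧ ∃ G, (∀ u ∈ Ioo (-ε) ε, t + u • τ ∈ N) ∧
      ∀ u ∈ Ioo (-ε) ε, ∀ s ∈ Ioo (-ε) ε, ∀ x, Gd N X t τ G ((u, s), x) := by
    have s1 := Ioo_subset_Ioo (neg_le_neg (min_le_left ε₀ δ)) (min_le_left ε₀ δ)
    have s2 := Ioo_subset_Ioo (neg_le_neg (min_le_right ε₀ δ)) (min_le_right ε₀ δ)
    exact ⟨_, lt_min hε₀ hδ, G₀, fun u hu => hb (by simpa [abs_lt] using s2 hu),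
      fun u hu s hs => h₀ u (s1 hu) s (s1 hs)⟩
  have z : (0 : ℝ) ∈ Ioo (-ε) ε := ⟨neg_lt_zero.2 hε, hε⟩
  have co : ∀ a ∈ Ioo (-ε) ε, ∀ b ∈ Ioo (-ε) ε, ∀ x, G ((a, b), G ((b, a), x)) = x :=
    fun a ha b hb x => (uniq hX (γ := fun c => G ((c, b), G ((b, a), x)))
      (γ' := fun c => G ((c, a), x)) (fun c hc => (h c hc a ha x).mem)
      (fun c hc => (h c hc b hb _).sol) (fun c hc => (h c hc a ha x).sol) hb
      (h b hb b hb _).ini a ha).trans (h a ha a ha x).ini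
  refine ⟨ε, fun u x => G ((u, 0), x), fun u x => G ((0, u), x), hε,
    hm, fun x => (h 0 z 0 z x).ini, fun u hu => co 0 z u hu, fun u hu => co u hu 0 z,
    fun u hu => ⟨continuous_iff_continuousAt.2 fun x => ?_, fun e e' x he he' => ?_⟩,
    fun u hu x => ?_, fun u hu e e' x he he' => ?_, fun u hu e x he => (h u hu 0 z x).sol.2 e he⟩
  · exact (h 0 z u hu x).cont.comp (f := fun x => (((0 : ℝ), u), x)) (by fun_prop)
  · exact ((h 0 z u hu x).sm e e' he he').comp (e x) (f := fun y => (((0 : ℝ), u), y))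
      (by fun_prop)
  · exact (h u hu 0 z x).cont.comp (f := fun r : ℝ × M.X => ((r.1, (0 : ℝ)), r.2)) (by fun_prop)
  · exact ((h u hu 0 z x).sm e e' he he').comp (u, e x)
      (f := fun r : ℝ × Cm d => ((r.1, (0 : ℝ)), r.2)) (by fun_prop)

end Vale.Agent.P301Z.Hl
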