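import Vale.Agent.P301Z.Hl.Defs

/-!
# P301, block HL: the Lie derivatives along the horizontal field
-/

open scoped Manifold ContDiff ComplexOrder Topology Matrix
open Set Filter Metric Complex Function
open Vale.Agent.P272.K Vale.Agent.P299.IX Vale.Agent.P299.IX.Fock
open Vale.Agent.P281Z (Mf Co)
open Vale.Agent.P281Z.Hg
open Vale.Agent.P301Z.Lat Vale.Agent.P301Z.Rot

noncomputable section

namespace Vale.Agent.P301Z.Hl.Glb

variable {d p : ℕ}

section lv

variable {E : Type} [NormedAddCommGroup E] [NormedSpace ℝ E] [NormedSpace ℂ E] {P : E → ℝ} {q : E}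

theorem lv_add (a b c : E) : lv P q (a + b) c = lv P q a c + lv P q b c := by
  simp only [lv, smul_add, map_add, _root_.add_apply]
  ring

theorem lv_cd (h : ContDiffAt ℝ ∞ P q) (a b : E) : ContDiffAt ℝ ∞ (fun r => lv P r a b) q := by
  have k : ContDiffAt ℝ ∞ (fderiv ℝ (fderiv ℝ P)) q :=
    (h.fderiv_right (m := ∞) (by simp)).fderiv_right (m := ∞) (by simp)
  exact (((k.clm_apply contDiffAt_const).clm_apply contDiffAt_const).sub
    ((k.clm_apply contDiffAt_const).clm_apply contDiffAt_const)).div_const 2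

end lv

theorem nd_f11 {g : Mx d} (hg : g.PosDef) {c : Cm d} (h : ∀ b, bv (f11 g) c b = 0) : c = 0 := by
  by_contra h0
  have k := h (I • c)
  have k1 := hg.dotProduct_mulVec_pos (star_ne_zero.2 h0)
  rw [star_star] at k1
  rw [bv_f11, star_smul, Matrix.mulVec_smul, dotProduct_smul, smul_dotProduct, smul_eq_mul,
    smul_eq_mul, star_def, conj_I] at k
  refine k1.ne' ?_
  linear_combination k / 2 + (c ⬝ᵥ g *ᵥ star c) * I_mul_I

theorem two_le : (2 : WithTop ℕ∞) ≤ ∞ := by norm_cast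

theorem cd_g (hL : LV) (hS : SMB) {P : Cm p × Cm d → ℝ} {q : Cm p × Cm d}
    (h : ContDiffAt ℝ ∞ P q) : ContDiffAt ℝ ∞ (fun r => f11 (gP P r)) q := by
  refine hS d _ _ q (.of_forall fun r => dg_om _) fun v v' => ?_
  refine (ofRealCLM.contDiff.contDiffAt.comp q (lv_cd h (0, v) (0, v'))).congr_of_eventuallyEq ?_
  filter_upwards [(h.of_le two_le).eventually (by simp)] with r hr
  exact (hL.fib P r v v' hr).symm

theorem cd_s (hS : SMB) {κ : Cm p → ℝ} {P : Cm p × Cm d → ℝ} {σ : Cm p × Cm d → Mx d}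
    {q : Cm p × Cm d} (h : Loc κ P σ q) : ContDiffAt ℝ ∞ (fun r => f20 (σ r)) q := by
  refine hS d _ _ q (.of_forall fun r => dg_f20 _) fun v v' => ?_
  have k : ContDiffAt ℝ ∞ (fun r => v ⬝ᵥ σ r *ᵥ v') q := by
    simp only [dotProduct, Matrix.mulVec]
    exact ContDiffAt.sum fun j _ => contDiffAt_const.mul (ContDiffAt.sum fun k _ =>
      (((h.an j k).contDiffAt (n := ∞)).restrict_scalars ℝ).mul contDiffAt_const)
  exact k.congr_of_eventuallyEq (h.pt.mono fun r hr => bv_f20 hr.2.2.1 v v')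

theorem glb_of (hL : LV) (hS : SMB) (hZ : HZ) (h1 : AL1) (h2 : AL2) (hP : PBL) (hH : HOR) :
    GLB := by
  intro d p M N κ A S hd G hN
  obtain ⟨sA, sS, hX⟩ := hH d p M N κ A S G hN
  refine ⟨sA, sS, fun τ => ?_⟩
  obtain ⟨X, hV, hE⟩ := hX τ
  refine ⟨X, hV, fun t ht => ?_⟩
  have key : ∀ e x, At e x → (∀ v v', lie τ (X e) (vq A e) (t, e x) v v' = 0) ∧
      Pt3 (mu κ τ t) (bv (vl (A t) e (e x))) (bv (vl (S t) e (e x)))
        (lie τ (X e) (vq S e) (t, e x)) := by
    intro e x he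
    obtain ⟨φ, P, σ, k1, k2, k3⟩ := G.loc t ht e x he
    obtain ⟨-, p1, p2, p3, -⟩ := k2.pt.self_of_nhds
    obtain ⟨a, ha⟩ := hZ p d P _ τ k2.sm p1
    have tn : Tendsto (fun r : Cm p × Cm d => (r.1, φ r)) (𝓝 (t, e x)) (𝓝 (t, φ (t, e x))) :=
      continuousAt_fst.prodMk k1.continuousAt
    have rel : ∀ᶠ r in 𝓝 (t, e x), fderiv ℝ φ r (τ, X e r) = a (r.1, φ r) := by
      filter_upwards [k3, tn.eventually k2.pt, tn.eventually ha.2,
        tn.eventually ((k2.sm.of_le two_le).eventually (by simp)),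
        continuousAt_fst.eventually_mem (hN.mem_nhds ht),
        continuousAt_snd.eventually_mem he.nhds_target] with r r1 r2 r3 r4 r5 r6
      have r7 := hE r.1 r5 e (e.symm r.2) (At.of_target he.1 r6)
      rw [e.right_inv r6] at r7
      refine sub_eq_zero.1 (nd_f11 r2.2.1 fun b => ?_)
      obtain ⟨η, rfl⟩ := r1.1.2 b
      have e1 : ((τ, fderiv ℝ φ r (τ, 0)) + (0, fderiv ℝ φ r (0, X e r)) : Cm p × Cm d) =
          (τ, a (r.1, φ r)) + (0, fderiv ℝ φ r (τ, X e r) - a (r.1, φ r)) := by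
        refine Prod.ext rfl ?_
        show _ + _ = _ + (_ - _)
        rw [← map_add, Prod.mk_add_mk, add_zero, zero_add, add_sub_cancel]
      have e2 := congrArg (fun c => (lv P (r.1, φ r) c (0, fderiv ℝ φ r (0, η)) : ℂ)) e1
      simp only [lv_add, ofReal_add] at e2
      rw [r3, hL.fib P _ _ _ r4, hL.fib P _ _ _ r4, ← r1.2.2.2, ← r1.2.1, r7 η, ofReal_zero,
        zero_add] at e2
      exact e2.symm
    have pb := fun (η : Cm p × Cm d → Fo d) (η' : Cm p × Cm d → Fo d) c1 c2 =>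
      hP d (Cm p) (Cm p) id φ (X e) a η η' (t, e x) τ differentiableAt_id (k1.of_le two_le)
        ((hV.sm t ht e x he).differentiableAt (by simp)) (ha.1.differentiableAt (by simp)) c1 c2
    obtain ⟨q1, q2, q3, -⟩ := k3.self_of_nhds
    refine ⟨fun v v' => ?_, ?_⟩
    · rw [pb (vq A e) (fun r => f11 (gP P r)) ((cd_g hL hS k2.sm).differentiableAt (by simp))
        ((rel.and k3).mono fun r hr => ⟨hr.1, hr.2.2.1⟩), fderiv_id]
      exact h1 p d P _ τ a k2.sm ha _ _
    · obtain ⟨H, m1, m2⟩ := h2 p d κ P σ _ τ a hd k2 ha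
      refine ⟨_, _, H, (fderiv ℝ φ (t, e x)).comp (ContinuousLinearMap.inr ℝ _ _), p2, p3, p1, q1,
        m1, q2, q3, fun v v' => ?_⟩
      rw [pb (vq S e) (fun r => f20 (σ r)) ((cd_s hS k2).differentiableAt (by simp))
        ((rel.and k3).mono fun r hr => ⟨hr.1, hr.2.2.2.1⟩), fderiv_id, q3]
      exact m2 _ _
  refine ⟨fun e x he v v' => ?_, fun e x he => (key e x he).2⟩
  rw [(key e x he).1, vl_zero, ← zero_smul ℂ (0 : Fo d), bv_smul, zero_mul]

end Vale.Agent.P301Z.Hl.Glb
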