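import Vale.Agent.P301Z.Hl.Defs

/-!
# P301, block HL: the horizontal field on the fixed manifold
-/

open scoped Manifold ContDiff ComplexOrder Topology Matrix
open Set Filter Metric Complex Function
open Vale.Agent.P272.K Vale.Agent.P299.IX Vale.Agent.P299.IX.Fock
open Vale.Agent.P281Z (Mf Co)
open Vale.Agent.P281Z.Hg
open Vale.Agent.P301Z.Lat Vale.Agent.P301Z.Rot

noncomputable section

namespace Vale.Agent.P301Z.Hl

namespace HorA

variable {d p : ℕ}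

theorem lv_cd {E E' : Type} [NormedAddCommGroup E] [NormedSpace ℝ E] [NormedSpace ℂ E]
    [IsScalarTower ℝ ℂ E] [NormedAddCommGroup E'] [NormedSpace ℝ E'] {P : E → ℝ} {c w w' : E' → E}
    {q : E'} (hP : ContDiffAt ℝ ∞ P (c q)) (hc : ContDiffAt ℝ ∞ c q) (hw : ContDiffAt ℝ ∞ w q)
    (hw' : ContDiffAt ℝ ∞ w' q) : ContDiffAt ℝ ∞ (fun r => lv P (c r) (w r) (w' r)) q := by
  have h1 : ContDiffAt ℝ ∞ (fderiv ℝ P) (c q) := hP.fderiv_right (by simp)
  have h2 : ContDiffAt ℝ ∞ (fun r => fderiv ℝ (fderiv ℝ P) (c r)) q :=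
    (h1.fderiv_right (m := ∞) (by simp)).comp q hc
  exact (((h2.clm_apply (hw.const_smul I)).clm_apply hw').sub
    ((h2.clm_apply hw).clm_apply (hw'.const_smul I))).div_const 2

theorem lv_add {E : Type} [NormedAddCommGroup E] [NormedSpace ℝ E] [NormedSpace ℂ E] (P : E → ℝ)
    (q v w v' : E) : lv P q (v + w) v' = lv P q v v' + lv P q w v' := by
  simp only [lv, smul_add, map_add, add_apply]
  ring

theorem bv_sub_l (u : Fo d) (a a' η : Cm d) : bv u (a - a') η = bv u a η - bv u a' η := by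
  simp only [← bL_apply, map_sub, sub_apply]

theorem nondeg {g : Mx d} (hg : g.PosDef) {w : Cm d} (h : bv (f11 g) w (I • w) = 0) : w = 0 := by
  by_contra hw
  have h1 := hg.dotProduct_mulVec_pos (x := star w) (star_ne_zero.2 hw)
  rw [star_star] at h1
  rw [bv_f11, star_smul, Matrix.mulVec_smul, dotProduct_smul, smul_dotProduct] at h
  have h2 : (2 : ℂ) * (w ⬝ᵥ g *ᵥ star w) = 0 := by
    rw [← h]
    simp only [smul_eq_mul, star_def, conj_I]
    linear_combination (2 * (w ⬝ᵥ g *ᵥ star w)) * I_mul_I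
  exact h1.ne' ((mul_eq_zero.1 h2).resolve_left two_ne_zero)

theorem inv_of {L : Cm d →L[ℝ] Cm d} (h : Bijective L) : L.IsInvertible :=
  ⟨(LinearEquiv.ofBijective (L : Cm d →ₗ[ℝ] Cm d) h).toContinuousLinearEquiv, by ext; rfl⟩

variable {M : Mf d} {N : Set (Cm p)} {κ : Cm p → ℝ} {A S : Cm p → Fs M}

theorem ev_dg {η : Cm p → Fs M} (hN : IsOpen N) (hc : ∀ t ∈ N, Cl2 M (η t)) {t : Cm p} (ht : t ∈ N)
    {e : Chart d M.X} {x : M.X} (he : At e x) :
    ∀ᶠ r in 𝓝 (t, e x), dg 2 *ᵥ vq η e r = vq η e r := by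
  filter_upwards [continuous_fst.continuousAt.eventually (hN.eventually_mem ht),
    continuous_snd.continuousAt.eventually he.nhds_target] with r h1 h2
  have := cl_dg (hc r.1 h1) (At.of_target he.1 h2)
  rwa [e.right_inv h2] at this

theorem fd_cd {φ : Cm p × Cm d → Cm d} {q : Cm p × Cm d} (h : ContDiffAt ℝ ∞ φ q)
    (v : Cm p × Cm d) : ContDiffAt ℝ ∞ (fun r => fderiv ℝ φ r v) q :=
  (h.fderiv_right (m := ∞) (by simp)).clm_apply contDiffAt_const

theorem ev_two {P : Cm p × Cm d → ℝ} {φ : Cm p × Cm d → Cm d} {q : Cm p × Cm d}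
    (hφ : ContDiffAt ℝ ∞ φ q) (hP : ContDiffAt ℝ ∞ P (q.1, φ q)) :
    ∀ᶠ r in 𝓝 q, ContDiffAt ℝ 2 P (r.1, φ r) :=
  (continuousAt_fst.prodMk hφ.continuousAt).eventually
    ((hP.of_le (m := 2) (WithTop.coe_le_coe.2 (le_top : (2 : ℕ∞) ≤ ⊤))).eventually (by simp))

theorem smA (hL : LV) (hS : SMB) (G : Md M N κ A S) (hN : IsOpen N) : SmF N A := by
  refine ⟨G.clA, fun t ht e x he => hS d _ _ _ (ev_dg hN G.clA ht he) fun v v' => ?_⟩
  obtain ⟨φ, P, σ, hφ, hl, hev⟩ := G.loc t ht e x he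
  have h1 := lv_cd (c := fun r : Cm p × Cm d => (r.1, φ r)) (q := (t, e x)) hl.sm
    (contDiffAt_fst.prodMk hφ)
    ((contDiffAt_const (c := (0 : Cm p))).prodMk (fd_cd hφ (0, v)))
    ((contDiffAt_const (c := (0 : Cm p))).prodMk (fd_cd hφ (0, v')))
  refine (ofRealCLM.contDiff.contDiffAt.comp _ h1).congr_of_eventuallyEq ?_
  filter_upwards [hev, ev_two (q := (t, e x)) hφ hl.sm] with r k1 k2
  rw [k1.2.1, ← hL.fib P _ _ _ k2]
  rfl

theorem smS (hS : SMB) (G : Md M N κ A S) (hN : IsOpen N) : SmF N S := by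
  refine ⟨G.clS, fun t ht e x he => hS d _ _ _ (ev_dg hN G.clS ht he) fun v v' => ?_⟩
  obtain ⟨φ, P, σ, hφ, hl, hev⟩ := G.loc t ht e x he
  have hc : ContDiffAt ℝ ∞ (fun r : Cm p × Cm d => (r.1, φ r)) (t, e x) := contDiffAt_fst.prodMk hφ
  have h1 : ContDiffAt ℝ ∞ (fun r : Cm p × Cm d => ∑ j, fderiv ℝ φ r (0, v) j *
      ∑ k, σ (r.1, φ r) j k * fderiv ℝ φ r (0, v') k) (t, e x) :=
    ContDiffAt.sum fun j _ => (contDiffAt_pi.1 (fd_cd hφ (0, v)) j).mul
      (ContDiffAt.sum fun k _ => (ContDiffAt.comp (g := fun r => σ r j k) (t, e x)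
        (((hl.an j k).contDiffAt (n := ∞)).restrict_scalars ℝ) hc).mul
        (contDiffAt_pi.1 (fd_cd hφ (0, v')) k))
  refine h1.congr_of_eventuallyEq ?_
  filter_upwards [hev, hc.continuousAt.eventually hl.pt] with r k1 k2
  rw [k1.2.2.1, bv_f20 k2.2.2.1]
  rfl

theorem loc (hL : LV) (hZ : HZ) (G : Md M N κ A S) (τ : Cm p) {t : Cm p} (ht : t ∈ N)
    {e : Chart d M.X} {x : M.X} (he : At e x) : ∃ X0 : Cm p × Cm d → Cm d,
      ContDiffAt ℝ ∞ X0 (t, e x) ∧ ∀ᶠ q in 𝓝 (t, e x),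
        (∀ η, (G.al e q τ η : ℂ) + bv (vq A e q) (X0 q) η = 0) ∧
        ∀ a, (∀ η, bv (vq A e q) a η = 0) → a = 0 := by
  obtain ⟨φ, P, σ, hφ, hl, hev⟩ := G.loc t ht e x he
  obtain ⟨a, ha1, ha2⟩ := hZ p d P _ τ hl.sm hl.pt.self_of_nhds.2.1
  have hc : ContDiffAt ℝ ∞ (fun r : Cm p × Cm d => (r.1, φ r)) (t, e x) := contDiffAt_fst.prodMk hφ
  have hLc : ContDiffAt ℝ ∞ (fun q => (fderiv ℝ φ q).comp
      (ContinuousLinearMap.inr ℝ (Cm p) (Cm d))) (t, e x) :=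
    (hφ.fderiv_right (m := ∞) (by simp)).clm_comp contDiffAt_const
  refine ⟨fun q => ((fderiv ℝ φ q).comp (ContinuousLinearMap.inr ℝ (Cm p) (Cm d))).inverse
    (a (q.1, φ q) - fderiv ℝ φ q (τ, 0)), ?_, ?_⟩
  · refine ContDiffAt.clm_apply ?_ ((ContDiffAt.comp (g := a) (t, e x) ha1 hc).sub (fd_cd hφ _))
    exact ContDiffAt.comp (g := ContinuousLinearMap.inverse) (t, e x)
      (inv_of hev.self_of_nhds.1).contDiffAt_map_inverse hLc
  · filter_upwards [hev, ev_two (q := (t, e x)) hφ hl.sm, hc.continuousAt.eventually hl.pt,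
      hc.continuousAt.eventually ha2] with q k1 k2 k3 k4
    constructor
    · intro η
      have e1 := (inv_of (L := (fderiv ℝ φ q).comp (ContinuousLinearMap.inr ℝ (Cm p) (Cm d)))
        k1.1).self_apply_inverse (a (q.1, φ q) - fderiv ℝ φ q (τ, 0))
      rw [ContinuousLinearMap.comp_apply, ContinuousLinearMap.inr_apply] at e1
      rw [k1.2.1, k1.2.2.2, ← hL.fib P _ _ _ k2, e1, ← ofReal_add, ← lv_add, Prod.mk_add_mk,
        add_zero, add_sub_cancel, k4, ofReal_zero]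
    · intro b hb
      obtain ⟨η, hη⟩ := k1.1.2 (I • fderiv ℝ φ q (0, b))
      have e1 := hb η
      rw [k1.2.1, show fderiv ℝ φ q (0, η) = _ from hη] at e1
      refine k1.1.1 ?_
      change fderiv ℝ φ q (0, b) = fderiv ℝ φ q 0
      rw [nondeg k3.2.1 e1, map_zero]

end HorA

open HorA in
theorem hor_of (hL : LV) (hZ : HZ) (hS : SMB) : HOR := by
  intro d p M N κ A S G hN
  refine ⟨smA hL hS G hN, smS hS G hN, fun τ => ?_⟩
  obtain ⟨X, hX⟩ : ∃ X : Chart d M.X → Cm p × Cm d → Cm d, ∀ e q a,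
      (∀ η, (G.al e q τ η : ℂ) + bv (vq A e q) a η = 0) →
      ∀ η, (G.al e q τ η : ℂ) + bv (vq A e q) (X e q) η = 0 :=
    ⟨fun e q => Classical.epsilon fun a => ∀ η, (G.al e q τ η : ℂ) + bv (vq A e q) a η = 0,
      fun e q a ha => Classical.epsilon_spec
        (p := fun a => ∀ η, (G.al e q τ η : ℂ) + bv (vq A e q) a η = 0) ⟨a, ha⟩⟩
  have uq : ∀ e q a, (∀ a, (∀ η, bv (vq A e q) a η = 0) → a = 0) →
      (∀ η, (G.al e q τ η : ℂ) + bv (vq A e q) a η = 0) → X e q = a := by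
    intro e q a h1 h2
    refine sub_eq_zero.1 (h1 _ fun η => ?_)
    rw [bv_sub_l]
    linear_combination hX e q a h2 η - h2 η
  have eq : ∀ t ∈ N, ∀ e x, At e x →
      ∀ η, (G.al e (t, e x) τ η : ℂ) + bv (vl (A t) e (e x)) (X e (t, e x)) η = 0 := by
    intro t ht e x he
    obtain ⟨X0, -, h2⟩ := loc hL hZ G τ ht he
    exact hX e _ _ h2.self_of_nhds.1
  refine ⟨X, ⟨fun t ht e x he => ?_, fun t ht e e' x he he' => ?_⟩, eq⟩
  · obtain ⟨X0, h1, h2⟩ := loc hL hZ G τ ht he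
    refine h1.congr_of_eventuallyEq ?_
    filter_upwards [h2] with q hq using uq e q _ hq.2 hq.1
  · obtain ⟨X0, -, h2⟩ := loc hL hZ G τ ht he'
    refine uq e' _ _ h2.self_of_nhds.2 fun η => ?_
    have e1 := eq t ht e x he (fderiv ℝ (trn e' e) (e' x) η)
    rw [G.ch t ht e e' x he he', bv_ch (A t) he he',
      trn_inv he'.2 he.2 (at_cd he' he) (at_cd he he')] at e1
    exact e1

end Vale.Agent.P301Z.Hl
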