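import Vale.Agent.P301Z.Hl.Defs

/-!
# P301, block HL: the horizontal field exists and preserves the metric
-/

open scoped ContDiff ComplexOrder Topology Matrix
open Set Filter Complex Function
open Vale.Agent.P272.K
open Vale.Agent.P281Z.Hg
open Vale.Agent.P301Z.Lat Vale.Agent.P301Z.Rot

set_option maxSynthPendingDepth 3

noncomputable section

namespace Vale.Agent.P301Z.Hl

namespace Hz

variable {p d : ℕ}

/-- the total space -/
abbrev Tt (p d : ℕ) : Type := Cm p × Cm d

/-- real bilinear forms -/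
abbrev Bl (p d : ℕ) : Type := Tt p d →L[ℝ] Tt p d →L[ℝ] ℝ

/-- the complex structure -/
def jj (p d : ℕ) : Tt p d →L[ℝ] Tt p d := I • ContinuousLinearMap.id ℝ (Tt p d)

/-- the two-form of a symmetric form -/
def la (p d : ℕ) : Bl p d →L[ℝ] Bl p d := LinearMap.toContinuousLinearMap
  { toFun := fun B => (1 / 2 : ℝ) • (B.comp (jj p d) -
      B.bilinearComp (ContinuousLinearMap.id ℝ _) (jj p d))
    map_add' := fun B B' => by
      refine ContinuousLinearMap.ext fun v => ContinuousLinearMap.ext fun v' => ?_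
      simp
      ring
    map_smul' := fun c B => by
      refine ContinuousLinearMap.ext fun v => ContinuousLinearMap.ext fun v' => ?_
      simp
      ring }

theorem la_apply (B : Bl p d) (v v' : Tt p d) :
    la p d B v v' = (B (I • v) v' - B v (I • v')) / 2 := by
  simp [la, jj]
  ring

/-- the form `lv` as a bilinear map -/
def om (P : Tt p d → ℝ) (r : Tt p d) : Bl p d := la p d (fderiv ℝ (fderiv ℝ P) r)

variable {P : Tt p d → ℝ} {q : Tt p d}

theorem om_apply (r v v' : Tt p d) : om P r v v' = lv P r v v' := la_apply _ _ _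

theorem d2 (h : ContDiffAt ℝ ∞ P q) : ContDiffAt ℝ ∞ (fderiv ℝ (fderiv ℝ P)) q :=
  (h.fderiv_right (m := ∞) le_rfl).fderiv_right (m := ∞) le_rfl

theorem om_sm (h : ContDiffAt ℝ ∞ P q) : ContDiffAt ℝ ∞ (om P) q :=
  (la p d).contDiff.contDiffAt.comp q (d2 h)

/-- restriction to the fibre -/
def rs (p d : ℕ) : (Tt p d →L[ℝ] ℝ) →L[ℝ] Cm d →L[ℝ] ℝ :=
  (ContinuousLinearMap.compL ℝ (Cm d) (Tt p d) ℝ).flip (ContinuousLinearMap.inr ℝ _ _)

theorem rs_apply (A : Tt p d →L[ℝ] ℝ) (v : Cm d) : rs p d A v = A (0, v) := rfl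

/-- the form on the fibre -/
def fm (P : Tt p d → ℝ) (r : Tt p d) : Cm d →L[ℝ] Cm d →L[ℝ] ℝ :=
  (rs p d).comp ((om P r).comp (ContinuousLinearMap.inr ℝ _ _))

theorem fm_apply (r : Tt p d) (v v' : Cm d) : fm P r v v' = om P r (0, v) (0, v') := rfl

theorem two : (2 : WithTop ℕ∞) ≤ ∞ := WithTop.coe_le_coe.2 le_top

theorem fm_inv (hL : LV) (h : ContDiffAt ℝ ∞ P q) (hp : (gP P q).PosDef) :
    (fm P q).IsInvertible := by
  have h1 : Injective (fm P q : Cm d →ₗ[ℝ] Cm d →L[ℝ] ℝ) := by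
    refine (injective_iff_map_eq_zero _).2 fun a ha => by_contra fun h0 => ?_
    have h2 : fm P q a (I • a) = 0 := by
      rw [show fm P q a = 0 from ha]
      rfl
    have h3 := hL.fib P q a (I • a) (h.of_le two)
    have h4 := hp.dotProduct_mulVec_pos (star_ne_zero.2 h0)
    rw [fm_apply, om_apply] at h2
    rw [h2, bv_f11, star_smul, Matrix.mulVec_smul, dotProduct_smul, smul_dotProduct, star_def,
      conj_I, smul_eq_mul, smul_eq_mul, ofReal_zero] at h3
    rw [star_star] at h4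
    refine h4.ne' ?_
    linear_combination (-1 / 2) * h3 + (a ⬝ᵥ gP P q *ᵥ star a) * I_sq
  have h2 : Module.finrank ℝ (Cm d) = Module.finrank ℝ (Cm d →L[ℝ] ℝ) :=
    Subspace.dual_finrank_eq.symm.trans LinearMap.toContinuousLinearMap.finrank_eq
  exact ⟨(LinearMap.linearEquivOfInjective _ h1 h2).toContinuousLinearEquiv, by
    ext1 v
    rfl⟩

theorem fd_zero {A : Tt p d → Bl p d} {A' : Tt p d →L[ℝ] Bl p d} {a : Tt p d → Cm d} {τ : Cm p}
    (hA : HasFDerivAt A A' q) (ha : DifferentiableAt ℝ a q) (c w : Tt p d)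
    (h : ∀ᶠ r in 𝓝 q, A r (τ, a r) c = 0) :
    A' w (τ, a q) c + A q (0, fderiv ℝ a q w) c = 0 := by
  have h1 := ((hA.clm_apply ((hasFDerivAt_const τ q).prodMk ha.hasFDerivAt)).clm_apply
    (hasFDerivAt_const c q)).unique ((hasFDerivAt_const (0 : ℝ) q).congr_of_eventuallyEq h)
  have h2 := congrArg (fun L : Tt p d →L[ℝ] ℝ => L w) h1
  rw [add_comm]
  simpa using h2

theorem sym3 (h : ContDiffAt ℝ ∞ P q) (a b c : Tt p d) :
    fderiv ℝ (fderiv ℝ (fderiv ℝ P)) q a b c = fderiv ℝ (fderiv ℝ (fderiv ℝ P)) q b a c ∧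
      fderiv ℝ (fderiv ℝ (fderiv ℝ P)) q a b c = fderiv ℝ (fderiv ℝ (fderiv ℝ P)) q a c b := by
  constructor
  · rw [((h.fderiv_right (m := ∞) le_rfl).isSymmSndFDerivAt (by simpa using two)).eq a b]
  · have h1 := ((d2 h).differentiableAt (by simp)).hasFDerivAt
    have h2 := fun b c : Tt p d =>
      (h1.clm_apply (hasFDerivAt_const b q)).clm_apply (hasFDerivAt_const c q)
    have h3 := (h2 b c).unique ((h2 c b).congr_of_eventuallyEq
      (((h.of_le two).eventually (by simp)).mono fun r hr =>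
        (hr.isSymmSndFDerivAt (by simp)).eq b c))
    simpa using congrArg (fun L : Tt p d →L[ℝ] ℝ => L a) h3

end Hz

open Hz in
/-- **HZ** -/
theorem hz_of (hL : LV) : HZ := by
  intro p d P q τ h hp
  have h1 : ContDiffAt ℝ ∞ (fm P) q :=
    contDiffAt_const.clm_comp ((om_sm h).clm_comp contDiffAt_const)
  have h2 : ContDiffAt ℝ ∞ (fun r => rs p d (om P r (τ, 0))) q :=
    (rs p d).contDiff.contDiffAt.comp q ((om_sm h).clm_apply contDiffAt_const)
  have h3 := fm_inv hL h hp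
  refine ⟨fun r => -(fm P r).inverse (rs p d (om P r (τ, 0))),
    ((h3.contDiffAt_map_inverse.comp q h1).clm_apply h2).neg, ?_⟩
  filter_upwards [h1.continuousAt.preimage_mem_nhds (ContinuousLinearEquiv.isOpen.mem_nhds h3)]
    with r hr η
  have h4 : (fm P r).IsInvertible := hr
  have h5 := congrArg (fun L : Cm d →L[ℝ] ℝ => L η) (h4.self_apply_inverse (rs p d (om P r (τ, 0))))
  have h6 : ∀ y : Cm d, ((τ, -y) : Tt p d) = (τ, 0) - (0, y) := fun y => by simp
  rw [← om_apply, h6, map_sub, _root_.sub_apply, ← fm_apply]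
  exact sub_eq_zero.2 h5.symm

open Hz in
/-- **AL1** -/
theorem al1_of (hL : LV) : AL1 := by
  intro p d P q τ a h ha v v'
  have h0 : ∀ᶠ r in 𝓝 q, ∀ v v', bv (f11 (gP P r)) v v' = (om P r (0, v) (0, v') : ℝ) :=
    ((h.of_le two).eventually (by simp)).mono fun r hr v v' => by
      rw [om_apply, hL.fib P r v v' hr]
  have h1 : HasFDerivAt (om P) ((la p d).comp (fderiv ℝ (fderiv ℝ (fderiv ℝ P)) q)) q :=
    (la p d).hasFDerivAt.comp q ((d2 h).differentiableAt (by simp)).hasFDerivAt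
  have h2 := fun (c w : Cm d) => fd_zero h1 (ha.1.differentiableAt (by simp)) (0, c) (0, w)
    (ha.2.mono fun r hr => (om_apply _ _ _).trans (hr c))
  have h3 := (ofRealCLM.hasFDerivAt.comp q ((h1.clm_apply (hasFDerivAt_const (0, v) q)).clm_apply
    (hasFDerivAt_const (0, v') q))).congr_of_eventuallyEq (h0.mono fun r hr => hr v v')
  have h4 : fderiv ℝ (fun r => bv (f11 (gP P r)) v v') q (τ, a q) =
      (la p d (fderiv ℝ (fderiv ℝ (fderiv ℝ P)) q (τ, a q)) (0, v) (0, v') : ℝ) := by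
    rw [h3.fderiv]
    simp
  have a1 := h2 v' v
  have a2 := h2 v v'
  simp only [ContinuousLinearMap.comp_apply, la_apply] at a1 a2 h4
  rw [lie, h4, bv_skew _ v, h0.self_of_nhds, h0.self_of_nhds, ← ofReal_neg, ← ofReal_add,
    ← ofReal_add, ofReal_eq_zero]
  have s := sym3 h
  generalize ((τ, a q) : Tt p d) = x at a1 a2 ⊢
  generalize ((0, v) : Tt p d) = y at a1 a2 ⊢
  generalize ((0, v') : Tt p d) = z at a1 a2 ⊢
  linarith [(s x (I • y) z).2, (s x z (I • y)).1, (s x y (I • z)).1, (s y (I • x) z).2,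
    (s y z (I • x)).1, (s z y (I • x)).2]

end Vale.Agent.P301Z.Hl
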