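import Vale.Agent.P301Z.Hl.Defs
import Vale.Agent.P301Z.Rot.R0
import Vale.Agent.P301Z.Cs.En

/-!
# P301, block HL: the row KILL
-/

open scoped Manifold ContDiff ComplexOrder Topology Matrix
open Set Filter Metric Complex Function
open Vale.Agent.P272.K Vale.Agent.P299.IX Vale.Agent.P299.IX.Fock
open Vale.Agent.P281Z (Mf)
open Vale.Agent.P281Z.Hg
open Vale.Agent.P301.H599 (ddc)
open Vale.Agent.P301Z.Lat Vale.Agent.P301Z.Rot

noncomputable section

namespace Vale.Agent.P301Z.Hl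

namespace KillH

variable {d : ℕ}

lemma cjv_add (u v : Fo d) : cjv (u + v) = cjv u + cjv v := by
  simp only [cjv, star_add, Matrix.mulVec_add]

/-- the Hermitian matrix `-i (H - H^*)` -/
def im (H : Mx d) : Mx d := (-I) • (H - Hᴴ)

lemma im_herm (H : Mx d) : (im H)ᴴ = im H := by
  simp only [im, Matrix.conjTranspose_smul, Matrix.conjTranspose_sub,
    Matrix.conjTranspose_conjTranspose, star_neg, RCLike.star_def, conj_I, neg_neg]
  rw [neg_smul, ← smul_neg, neg_sub]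

lemma im_tr {w H : Mx d} (hw : w.PosDef) (h : (w⁻¹ * H).trace = 0) : (w⁻¹ * im H).trace = 0 := by
  have h1 : (w⁻¹ * Hᴴ).trace = 0 := by
    have h2 := congrArg star h
    rw [← Matrix.trace_conjTranspose, Matrix.conjTranspose_mul, hw.isHermitian.inv.eq,
      Matrix.trace_mul_comm, star_zero] at h2
    exact h2
  rw [im, Matrix.mul_smul, Matrix.trace_smul, Matrix.mul_sub, Matrix.trace_sub, h, h1]
  simp

lemma val (hP : PWA) (a : Fo d) (H : Mx d) :
    (-I) • ((a + f11 H) - cjv (a + f11 H) - a + cjv a) = f11 (im H) := by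
  have h1 : f11 (H - Hᴴ) = f11 H - f11 Hᴴ := by
    rw [sub_eq_add_neg, hP.f11_add, ← neg_one_smul ℂ Hᴴ, hP.f11_smul, neg_one_smul,
      ← sub_eq_add_neg]
  rw [im, hP.f11_smul, h1, cjv_add, hP.cjv11]
  congr 1
  abel

lemma bv_I (G : Mx d) (a b : Cm d) : bv (f11 G) (I • a) (I • b) = bv (f11 G) a b := by
  simp only [bv_f11, star_smul, Matrix.mulVec_smul, smul_dotProduct, dotProduct_smul, smul_eq_mul,
    RCLike.star_def, conj_I]
  linear_combination (-I * (a ⬝ᵥ G *ᵥ star b - b ⬝ᵥ G *ᵥ star a)) * I_mul_I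

/-- a closed form which is real of type `(1,1)` in one chart at each point -/
lemma r11 (hP : PWA) {V : Mf d} {γ : Fs V} (hc : Cl2 V γ)
    (h : ∀ y, ∃ e, At e y ∧ ∃ G : Mx d, Gᴴ = G ∧ vl γ e (e y) = f11 G) :
    ∃ a : Fld V, R11 a ∧ Is11 a γ := by
  refine ⟨_, r11_of hc (fun e x hx a b => ?_) fun e x hx a b => ?_⟩
  · obtain ⟨e', h', G, -, hG⟩ := h x
    rw [bv_ch γ hx h', bv_ch γ hx h' a b, hG]
    simp only [fd_jac hx h', Matrix.mulVec_smul]
    exact bv_I _ _ _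
  · obtain ⟨e', h', G, hh, hG⟩ := h x
    rw [bv_ch γ hx h', hG, ← bv_cjv, hP.cjv11, hh]

/-- a function which is harmonic in one chart at each point is constant -/
lemma harm {V : Mf d} [ConnectedSpace V.X] {w : Fld V} (hw : IsKahler w) {f : V.X → ℝ}
    (hf : P301.H599.Smooth (d := d) f)
    (h : ∀ y, ∃ e, At e y ∧ ((w e (e y))⁻¹ * ddc f e (e y)).trace = 0) (e : Chart d V.X)
    (z : Cm d) : ddc f e z = 0 := by
  have hf' : SmoothFn (n := d) f := hf
  have h1 : ∀ x y, f x = f y := fun x y => by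
    refine Ab.Bij.const_of_nonneg (Cs.lapL hw.toIsHermitian) (fun _ => rfl)
      (N.c2Fn_iff.1 hf'.c2Fn) (fun x => ?_) x y
    obtain ⟨e', h', h2⟩ := h x
    show 0 ≤ (_ * ddc f _ _).trace.re
    rw [trace_inv hw.toIsHermitian.isForm (P301.H450.isReal11_ddc hf').form (AMP.at_chartAt x) h',
      h2]
    simp
  have h2 : (fun y => f (e.symm y)) = fun _ => f (e.symm z) := funext fun y => h1 _ _
  show cHess (fun y => f (e.symm y)) z = 0
  rw [h2, C2.cHess_const]

end KillH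

open KillH in
theorem kill_of (hL : LAT) : KILL := by
  intro n r B Y s w p k β ν hK hβ hc h
  obtain ⟨⟨⟨hs, u, hu, cu, pu⟩, hd⟩, hw, hk⟩ := id hK
  have := conn Y
  set γ : Fs Y.V := (-I) • (β - ν • u + (dR Y.V).cj (ν • u)) with hγ
  have cγ : Cl2 Y.V γ := ((hβ.sub (cu.smul ν)).add (cu.smul ν).cj).smul _
  have hv : ∀ y, ∃ e, At e y ∧ ∃ G : Mx (n + n), Gᴴ = G ∧ vl γ e (e y) = f11 G ∧
      ((w e (e y))⁻¹ * G).trace = 0 := fun y => by
    obtain ⟨e, he, H, h1, h2⟩ := h y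
    refine ⟨e, he, im H, im_herm H, ?_, im_tr (hw.1.posDef e y he) h1⟩
    rw [hγ, vl_smul, vl_add, vl_sub, vl_cj _ he, vl_smul, hu e y he, h2]
    exact val hL.pwa _ _
  obtain ⟨a, ha, haγ⟩ := r11 hL.pwa cγ fun y => by
    obtain ⟨e, he, G, h1, h2, -⟩ := hv y
    exact ⟨e, he, G, h1, h2⟩
  obtain ⟨v, hC⟩ := hL.rel.c11 Y ha
  have hP : Y.Per s p := hK.1.1
  have hcl : rc v = (-I) • (-(ν • p) + star (ν • p)) := by
    obtain ⟨-, u', h1, -, h2⟩ := id hC
    rw [← h2, h1.uniq haγ, hγ, map_smul, map_add, map_sub, Y.m.cj _ (cu.smul ν), map_smul, pu, hc,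
      zero_sub]
  have hν : ν = 0 := by
    have h1 := hL.rel.p11 hP hC
    rw [hcl, qC_smul_r, qC_add_r, ← neg_smul, qC_smul_r, star_smul, qC_smul_r, hL.rel.pp hP hP,
      mul_zero, zero_add] at h1
    have h2 := (mul_eq_zero.1 h1).resolve_left (neg_ne_zero.2 I_ne_zero)
    exact star_eq_zero.1 ((mul_eq_zero.1 h2).resolve_right (hL.rel.ppb hK).ne')
  have hv0 : v = 0 := by
    apply rc_inj
    rw [hcl, hν, rc_zero]
    simp
  have h0 := hL.rel.add 0 0 hC hC
  rw [hv0] at hC h0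
  simp only [smul_zero, add_zero] at h0
  obtain ⟨f, hf, hfa⟩ := hL.ddc hw hk hC h0
  have hfa' : ∀ e x, At e x → a e (e x) = ddc f e (e x) := fun e x hx => by
    rw [hfa e x hx]
    simp
  have hz := harm hw.1 hf fun y => by
    obtain ⟨e, he, G, -, h2, h3⟩ := hv y
    refine ⟨e, he, ?_⟩
    have h4 := congrArg m11 ((haγ.val he).symm.trans h2)
    rw [hL.pwa.m11_f11, hL.pwa.m11_f11] at h4
    rw [← hfa' e y he, h4, h3]
  have hγ0 : γ = 0 := ext_F fun e x hx => by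
    rw [haγ.val hx, hfa' e x hx, hz, vl_zero, ← zero_smul ℂ (0 : Mx (n + n)), hL.pwa.f11_smul,
      zero_smul]
  rw [hγ, hν, zero_smul, map_zero, sub_zero, add_zero] at hγ0
  exact (smul_eq_zero.1 hγ0).resolve_left (neg_ne_zero.2 I_ne_zero)

end Vale.Agent.P301Z.Hl
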