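import Vale.Agent.P301Z.Hl.Defs
import Vale.Agent.P301Z.Rot.Rtu
import Vale.Agent.P301Z.Top0

/-!
# P301, block HL: nearby fibres
-/

open scoped Manifold ContDiff ComplexOrder Topology Matrix
open Set Filter Metric Complex Function
open Vale.Agent.P272.K Vale.Agent.P299.IX Vale.Agent.P299.IX.Fock
open Vale.Agent.P281Z (Mf Co)
open Vale.Agent.P281Z.Hg
open Vale.Agent.P301.H450 (IsHK)
open Vale.Agent.P301Z.Lat Vale.Agent.P301Z.Rot

noncomputable section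

namespace Vale.Agent.P301Z.Hl.Lmv

section cf

variable {d p : ℕ} {M : Mf d} {N : Set (Cm p)} {θ : Cm p → ℝ} {S : Cm p → Fs M} {t : Cm p}
  {e : Chart d M.X} {x : M.X}

/-- the normalised imaginary part -/
def Cf (θ : Cm p → ℝ) (S : Cm p → Fs M) (t : Cm p) : Fs M := (θ t : ℂ) • (S t - (dR M).cj (S t))

theorem vq_Cf (he : At e x) : ∀ᶠ r in 𝓝 (t, e x),
    vq (Cf θ S) e r = (θ r.1 : ℂ) • (vq S e r - cjv (vq S e r)) := by
  filter_upwards [continuousAt_snd.eventually_mem he.nhds_target] with r hr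
  have k := vl_cj (S r.1) (At.of_target he.1 hr)
  rw [e.right_inv hr] at k
  show vl (Cf θ S r.1) e r.2 = _
  rw [Cf, vl_smul, vl_sub, k]

/-- conjugation as a real linear map -/
def cjL (d : ℕ) : Fo d →L[ℝ] Fo d := LinearMap.toContinuousLinearMap
  { toFun := cjv
    map_add' := f1b.cjv_add
    map_smul' := fun c u => (f1b.cjv_smul c u).trans (by
      rw [star_def, conj_ofReal]
      rfl) }

theorem th_cd (h : ContDiffAt ℝ ∞ θ t) (z : Cm d) :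
    ContDiffAt ℝ ∞ (fun r : Cm p × Cm d => (θ r.1 : ℂ)) (t, z) :=
  ofRealCLM.contDiff.contDiffAt.comp _ (ContDiffAt.comp (g := θ) _ h contDiffAt_fst)

theorem smF_Cf (hS : SmF N S) (hθ : ∀ t ∈ N, ContDiffAt ℝ ∞ θ t) : SmF N (Cf θ S) :=
  ⟨fun t ht => ((hS.cl t ht).sub (hS.cl t ht).cj).smul _, fun t ht e x he =>
    ((th_cd (hθ t ht) _).smul ((hS.sm t ht e x he).sub ((cjL d).contDiff.contDiffAt.comp _
      (hS.sm t ht e x he)))).congr_of_eventuallyEq (vq_Cf he)⟩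

theorem lie_Cf (he : At e x) (hS : ContDiffAt ℝ ∞ (vq S e) (t, e x)) (hθ : ContDiffAt ℝ ∞ θ t)
    (τ : Cm p) (X : Cm p × Cm d → Cm d) (v v' : Cm d) :
    lie τ X (vq (Cf θ S) e) (t, e x) v v' =
      ((fderiv ℝ θ t τ : ℝ) * bv (vl (S t) e (e x)) v v' + θ t * lie τ X (vq S e) (t, e x) v v') -
      star ((fderiv ℝ θ t τ : ℝ) * bv (vl (S t) e (e x)) v v' +
        θ t * lie τ X (vq S e) (t, e x) v v') := by
  have k0 := vq_Cf (θ := θ) (S := S) (t := t) he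
  have k1 : (fun r => bv (vq (Cf θ S) e r) v v') =ᶠ[𝓝 (t, e x)] fun r =>
      (θ r.1 : ℂ) * (bv (vq S e r) v v' - star (bv (vq S e r) v v')) :=
    k0.mono fun r hr => by simp only [hr, bv_smul, bv_sub, bv_cjv]
  have k2 : HasFDerivAt (fun r => bv (vq S e r) v v')
      (fderiv ℝ (fun r => bv (vq S e r) v v') (t, e x)) (t, e x) := by
    simp only [← bL_apply]
    exact ((((bL_cd hS).clm_apply contDiffAt_const).clm_apply contDiffAt_const).differentiableAt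
      (by simp)).hasFDerivAt
  have k3 : HasFDerivAt (fun r : Cm p × Cm d => (θ r.1 : ℂ))
      (ofRealCLM.comp ((fderiv ℝ θ t).comp (ContinuousLinearMap.fst ℝ _ _))) (t, e x) :=
    ofRealCLM.hasFDerivAt.comp _ (HasFDerivAt.comp (g := θ) _
      (hθ.differentiableAt (by simp)).hasFDerivAt hasFDerivAt_fst)
  have k4 := (k3.fun_mul (k2.fun_sub k2.star)).fderiv
  rw [lie, lie, k1.fderiv_eq, k0.self_of_nhds, k4]
  simp only [bv_smul, bv_sub, bv_cjv]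
  simp
  ring

theorem dF_bij {V Z : Mf d} {f : V.X → Z.X} {g : Z.X → V.X} (hf : Smo d d f) (hg : Smo d d g)
    (h : LeftInverse g f) (h' : RightInverse g f) {e : Chart d V.X} {c : Chart d Z.X} {x : V.X}
    (he : At e x) (hc : At c (f x)) : Bijective (dF f e c x) := by
  refine ⟨LeftInverse.injective (dF_inv hf hg h he hc), fun b => ⟨dF g c e (f x) b, ?_⟩⟩
  have k := dF_inv hg hf h' hc (by rwa [h x]) b
  rwa [h x] at k

theorem dg_im {u : Fo d} (h : dg 2 *ᵥ u = u) : dg 2 *ᵥ (u - cjv u) = u - cjv u := by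
  rw [Matrix.mulVec_sub, ← f1b.cjv_dg, h]

/-- flows respect the markings -/
theorem mor_fl {n r : ℕ} {B : BB n r} (hL : LAT) {M : MK B} (hM : M.V.Kah)
    {X : Chart (n + n) M.V.X → Cm p × Cm (n + n) → Cm (n + n)} {τ : Cm p} {ε : ℝ}
    {h h' : ℝ → M.V.X → M.V.X} (H : Fl N X t τ ε h h') {u : ℝ} (hu : u ∈ Ioo (-ε) ε) :
    M.Mor M (h u) := by
  have sm : ∀ u ∈ Ioo (-ε) ε, Smo (n + n) (n + n) (h u) := fun u hu =>
    ⟨continuous_iff_continuousAt.2 fun x => ContinuousAt.comp (f := fun x => (u, x))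
      (H.cont u hu x) (by fun_prop), fun e e' x he he' => ContDiffAt.comp (f := fun z => (u, z))
      (e x) (H.sm u hu e e' x he he') (contDiffAt_const.prodMk contDiffAt_id)⟩
  have h0 : (0 : ℝ) ∈ Ioo (-ε) ε := ⟨neg_lt_zero.2 H.pos, H.pos⟩
  choose T hT using fun u : Ioo (-ε) ε => pb_ex (sm u u.2)
  have : PreconnectedSpace (Ioo (-ε) ε) := Subtype.preconnectedSpace isPreconnected_Ioo
  refine ⟨sm u hu, fun T' hT' v hv => ?_⟩
  have k := hL.mark.htpy hM hM (fun u : Ioo (-ε) ε => h u) (fun u => T u)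
    (continuous_iff_continuousAt.2 fun q => ContinuousAt.comp
      (f := fun q : Ioo (-ε) ε × M.V.X => ((q.1 : ℝ), q.2)) (H.cont q.1 q.1.2 q.2) (by fun_prop))
    (fun u => sm u u.2) hT v hv ⟨u, hu⟩ ⟨0, h0⟩
  have k1 : T ⟨0, h0⟩ v = v := by
    have k2 := hT ⟨0, h0⟩
    have k3 := sm 0 h0
    rw [show h ((⟨0, h0⟩ : Ioo (-ε) ε) : ℝ) = id from funext H.zero] at k2
    rw [show h 0 = id from funext H.zero] at k3
    exact congrFun ((pb1T _ _ _ _ id k3).2.1 _ id k2 (pbc _ _ (n + n) M.V.X f1a k1b').1) v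
  rw [k1] at k
  rw [(pb1T _ _ _ _ _ (sm u hu)).2.1 T' _ hT' (hT ⟨u, hu⟩)]
  exact (M.m.eq_of (cl_pb (sm u hu) (hT ⟨u, hu⟩) hv) hv).2 k

end cf

section lf

variable {n r : ℕ} {B : BB n r} {F : Fr B} {k : Fin r → ℝ} {D : ℕ} {V : Mf D} {W : Fld V} {c : ℕ}
  {t₀ : Cm (c + 1)} {δ : ℝ} {L : LF F k W c t₀ δ} {N : Set (Cm (c + 1))} {φ : V.X → ℝ}
  {κ : Cm (c + 1) → ℝ} {t : Cm (c + 1)}

theorem kc_wF (hL : LAT) (h : Cy L N φ κ) (ht : t ∈ N) : (L.Φ t).Y.Kc (wF L φ t) k := by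
  have hk := (h.hk t ht).kahler
  refine ⟨hk, hL.rel.same (L.kc t (h.sub ht)).2 (R11.kahler hk)
    ⟨fun y => φ ((L.Φ t).i y), fun e x he => ?_, fun e x _ => rfl⟩⟩
  have em := L.emb t (h.sub ht)
  have k0 : (L.Φ t).i x ∈ L.O ∩ L.g ⁻¹' {t} := em.rng ▸ mem_range_self x
  have he' : At (chartAt (Cm D) ((L.Φ t).i x)) ((L.Φ t).i x) := Lat.at_chart _
  have k1 := h.sm _ k0.1 (by rwa [show L.g ((L.Φ t).i x) = t from k0.2]) _ he'
  have k2 := ((em.hol.at x).an he he').contDiffAt (n := ∞)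
  have k3 : ∀ᶠ z in 𝓝 (e x), (L.Φ t).i (e.symm z) ∈ (chartAt (Cm D) ((L.Φ t).i x)).source :=
    (em.hol.cont.continuousAt.comp (e.continuousAt_symm (e.map_source he.2))).eventually_mem (by
      rw [comp_apply, e.left_inv he.2]
      exact chart_source_mem_nhds _ _)
  refine (ContDiffAt.comp (e x) (by rwa [e.left_inv he.2]) (k2.restrict_scalars ℝ)
    ).congr_of_eventuallyEq (k3.mono fun z hz => ?_)
  simp only [comp_apply, OpenPartialHomeomorph.left_inv _ hz]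

/-- the function `1 / Im t₀` -/
def th (t : Cm (c + 1)) : ℝ := ((t 0).im)⁻¹

theorem th_sm (h : 0 < (t 0).im) : ContDiffAt ℝ ∞ th t :=
  (imCLM.contDiff.contDiffAt.comp t (contDiffAt_apply ℝ ℂ 0 t)).inv h.ne'

theorem th_cls (h : 0 < (t 0).im) : (th t : ℂ) • (F.p (t 0) - star (F.p (t 0))) =
    (-(2 * I * (F.e * (t 0).re / F.D : ℝ))) • rc (zr F.l) + (2 * I) • rc (zr F.v) := by
  have k := Tp.im_eq F (t 0).re (t 0).im
  have k1 : ((t 0).im : ℂ) ≠ 0 := ofReal_ne_zero.2 h.ne'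
  rw [re_add_im] at k
  rw [k, smul_add, smul_smul, smul_smul, th, ofReal_inv]
  congr 2 <;> field_simp

variable {A S : Cm (c + 1) → Fs L.M.V}

theorem cls_Cf (h : Cy L N φ κ) (ht : t ∈ N) (hS : Cl2 _ (S t))
    (hs : ∀ T, IsPb (ψF L t) T → Is20 (L.Φ t).s (T (S t))) : L.M.m.c (Cf th S t) =
      (-(2 * I * (F.e * (t 0).re / F.D : ℝ))) • rc (zr F.l) + (2 * I) • rc (zr F.v) := by
  have m := L.mor t (h.sub ht)
  obtain ⟨T, hT⟩ := pb_ex m.1
  obtain ⟨⟨-, u, k1, -, k2⟩, -⟩ := L.sym t (h.sub ht)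
  rw [Cf, map_smul, map_sub, L.M.m.cj _ hS, ← m.2 T hT _ hS, (hs T hT).uniq k1, k2,
    th_cls (L.im t (h.sub ht))]

theorem lie_zero (hL : LAT) (hF : FIB) (hT : TYP) (hK : KILL) (hI : LIE) (hk : 0 < qR B.q k k)
    (h : Cy L N φ κ) (sS : SmF N S) {τ : Cm (c + 1)} (hτ : (τ 0).re = 0)
    {X : Chart (n + n) L.M.V.X → Cm (c + 1) × Cm (n + n) → Cm (n + n)} (hX : VF N X)
    (hs : ∀ t ∈ N, ∀ T, IsPb (ψF L t) T → Is11 (wF L φ t) (T (A t)) ∧ Is20 (L.Φ t).s (T (S t)))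
    (ht : t ∈ N) {μ : ℂ} (hP : ∀ e x, At e x → Pt3 μ (bv (vl (A t) e (e x)))
      (bv (vl (S t) e (e x))) (lie τ (X e) (vq S e) (t, e x))) : IsLie τ X (Cf th S) t 0 := by
  have sθ : ∀ t ∈ N, ContDiffAt ℝ ∞ th t := fun t ht => th_sm (L.im t (h.sub ht))
  obtain ⟨β, b1, b2, b3⟩ := hI n r _ B L.M N _ X h.opn (smF_Cf sS sθ) hX t ht τ
  have b4 : L.M.m.c β = 0 := by
    have k0 : ContinuousAt (fun u : ℝ => t + u • τ) 0 := by fun_prop
    refine b3.unique ((hasDerivAt_const (0 : ℝ) (L.M.m.c (Cf th S t))).congr_of_eventuallyEq ?_)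
    filter_upwards [k0.eventually_mem (h.opn.mem_nhds (by simpa using ht))] with u hu
    rw [cls_Cf h hu (sS.cl _ hu) fun T hT => (hs _ hu T hT).2,
      cls_Cf h ht (sS.cl _ ht) fun T hT => (hs _ ht T hT).2]
    simp [hτ]
  have m : (L.Φ t).Y.Mor L.M (ψF L t) := L.mor t (h.sub ht)
  obtain ⟨ϑ, i1, i2, m', -⟩ := hF n r B F k D V W c t₀ δ L t (h.sub ht)
  obtain ⟨T, hT1⟩ := pb_ex m.1
  obtain ⟨T', hT2⟩ := pb_ex m'.1
  obtain ⟨a1, a2⟩ := hs t ht T hT1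
  have sy := L.sym t (h.sub ht)
  have b5 : T β = 0 := by
    refine hK n r B _ _ (wF L φ t) _ k _ ((fderiv ℝ th t τ : ℝ) + th t * μ) ⟨sy, kc_wF hL h ht, hk⟩
      (cl_pb m.1 hT1 b1) (by rw [m.2 T hT1 β b1, b4]) fun y => ?_
    have he' := Lat.at_chart y
    have he := Lat.at_chart (ψF L t y)
    refine ⟨_, he', ?_⟩
    generalize chartAt (Cm (n + n)) y = e' at he' ⊢
    generalize chartAt (Cm (n + n)) (ψF L t y) = e at he
    obtain ⟨g, σ, H, Λ, p1, p2, p3, p4, p5, p6, p7, p8⟩ := hP e _ he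
    have q1 := fun v v' => (congrArg (bv · v v') (a1.val he')).symm.trans
      (bv_dF m.1 hT1 (A t) he' he v v')
    have q2 := fun v v' => (congrArg (bv · v v') (a2 e' y he')).symm.trans
      (bv_dF m.1 hT1 (S t) he' he v v')
    obtain ⟨H', c1, c2⟩ := hT _ _ _ g σ H (Λ.comp (dF (ψF L t) e' e y)) (sy.1.1.alt e' y he') p1 p2
      p3 (p4.comp (dF_bij m.1 m'.1 i1 i2 he' he)) p5 (fun v v' => (q1 v v').trans (p6 _ _))
      fun v v' => (q2 v v').trans (p7 _ _)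
    refine ⟨(th t : ℂ) • H', by rw [Matrix.mul_smul, Matrix.trace_smul, c1, smul_zero],
      bv_ext ((cl_pb m.1 hT1 b1).dg he') (dg_im ?_) fun v v' => ?_⟩
    · rw [Matrix.mulVec_add, Matrix.mulVec_smul, dg_f20, hL.pwa.dg11]
    · rw [bv_dF m.1 hT1 β he' he, b2 e _ he, lie_Cf he (sS.sm t ht e _ he) (sθ t ht), p8, bv_sub,
        bv_cjv, bv_add, bv_smul, hL.pwa.f11_smul, bv_smul, c2, q2]
      simp only [ContinuousLinearMap.comp_apply]
      congr 1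
      · ring
      · congr 1
        ring
  have b6 : β = 0 := by rw [← pb_inv m'.1 m.1 i2 hT2 hT1 β, b5, map_zero]
  exact b6 ▸ b2

end lf

theorem lmv_of (hL : LAT) (hC : CYV) (hF : FIB) (hM : MOD) (hG : GLB) (hT : TYP) (hK : KILL)
    (hI : LIE) (hW : FLOW) (hV : INV) : LMV := by
  intro n r B F k D V W c t₀ δ L hk t ht0 τ hτ
  obtain ⟨N, φ, κ, ht, h⟩ := hC n r B F k D V W c t₀ δ L hk t ht0
  obtain ⟨A, S, ⟨G⟩, hs⟩ := hM n r B F k D V W c t₀ δ L N φ κ h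
  obtain ⟨sA, sS, hX⟩ := hG _ _ _ N κ A S (Nat.add_pos_left B.npos n) G h.opn
  obtain ⟨X, hX, hl⟩ := hX τ
  obtain ⟨ε, f, f', H⟩ := hW _ _ _ N X h.opn hX t ht τ
  have sθ : ∀ t ∈ N, ContDiffAt ℝ ∞ th t := fun t ht => th_sm (L.im t (h.sub ht))
  have iA := hV _ _ _ N X A t τ ε f f' hX sA H fun u hu => (hl _ (H.mem u hu)).1
  have iC := hV _ _ _ N X _ t τ ε f f' hX (smF_Cf sS sθ) H fun u hu =>
    lie_zero hL hF hT hK hI hk h sS hτ hX hs (H.mem u hu) (hl _ (H.mem u hu)).2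
  filter_upwards [Ioo_mem_nhds (neg_lt_zero.2 H.pos) H.pos] with u hu
  have ht' := H.mem u hu
  have mf := mor_fl hL L.Mk H hu
  have mf' := mor_inv (H.smo' u hu) mf (H.li u hu)
  have l1 := H.li u hu
  have l2 := H.ri u hu
  replace iA := iA u hu
  replace iC := iC u hu
  generalize t + u • τ = t' at ht' iA iC ⊢
  have m : (L.Φ t).Y.Mor L.M (ψF L t) := L.mor t ht0
  have m' : (L.Φ t').Y.Mor L.M (ψF L t') := L.mor t' (h.sub ht')
  obtain ⟨ϑ, i1, i2, n1, -⟩ := hF n r B F k D V W c t₀ δ L t ht0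
  obtain ⟨ϑ', j1, j2, n2, -⟩ := hF n r B F k D V W c t₀ δ L t' (h.sub ht')
  obtain ⟨T, hT1⟩ := pb_ex m.1
  obtain ⟨T', hT2⟩ := pb_ex m'.1
  obtain ⟨U, hU⟩ := pb_ex mf.1
  obtain ⟨R, hR⟩ := pb_ex n2.1
  have inv := pb_inv n2.1 m'.1 j2 hR hT2
  have p1 := L.im t ht0
  have p2 := L.im t' (h.sub ht')
  refine ⟨wF L φ t, wF L φ t', κ t, κ t', (t' 0).im / (t 0).im, ϑ' ∘ f u ∘ ψF L t,
    ϑ ∘ f' u ∘ ψF L t', T (S t), T (A t), T' (S t'), T' (A t'), (T ∘ U) ∘ R, div_pos p2 p1,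
    kc_wF hL h ht, kc_wF hL h ht', h.hk t ht, h.hk t' ht', fun y => ?_, fun y => ?_,
    mor_comp (mor_comp m mf) n2, mor_comp (mor_comp m' mf') n1, (hs t ht T hT1).2,
    (hs t ht T hT1).1, (hs t' ht' T' hT2).2, (hs t' ht' T' hT2).1,
    (pb_comp (mor_comp m mf).1 n2.1 (pb_comp m.1 mf.1 hT1 hU).2 hR).2, ?_, ?_⟩
  · simp only [comp_apply, j2 _, l1 _, i1 _]
  · simp only [comp_apply, i2 _, l2 _, j1 _]
  · simp only [comp_apply, inv, iA U hU]
  · have k1 := congrArg (fun a => ((t' 0).im : ℂ) • T a) (iC U hU)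
    have k2 : ((t' 0).im : ℂ) ≠ 0 := ofReal_ne_zero.2 p2.ne'
    simp only [Cf, map_smul, smul_smul, th, ofReal_inv, mul_inv_cancel₀ k2, one_smul] at k1
    rw [← pb_cj m'.1 hT2, ← pb_cj m.1 hT1, ← map_sub, ← map_sub, comp_apply, comp_apply, inv, k1,
      ofReal_div, div_eq_mul_inv]

theorem hl_of (hM : LMV) (hT : TRF) : HL := by
  rintro n r B F k x P P' Z hk ⟨D, V, W, c, t₀, δ, L, t, t', h1, h2, h3, h4, rfl, rfl⟩ h
  have hq : 0 < qR B.q k k := hk.2.2.2 ▸ F.epos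
  have hτ : ((t' - t) 0).re = 0 := by simp [h3, h4]
  have mem : ∀ u ∈ Icc (0 : ℝ) 1, t + u • (t' - t) ∈ ball t₀ δ := fun u hu =>
    (convex_ball t₀ δ).add_smul_sub_mem h1 h2 hu
  have key := isPreconnected_Icc.induction₂' (s := Icc (0 : ℝ) 1) (fun u u' =>
    RotK (L.Φ (t + u • (t' - t))).toPt k Z → RotK (L.Φ (t + u' • (t' - t))).toPt k Z)
    (fun u hu => ?_) (fun _ _ _ _ _ _ a b c => b (a c)) (left_mem_Icc.2 zero_le_one)
    (right_mem_Icc.2 zero_le_one)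
  · simp only [zero_smul, add_zero, one_smul, add_sub_cancel] at key
    exact key h
  · have k0 : Tendsto (fun u' : ℝ => u' - u) (𝓝 u) (𝓝 0) :=
      tendsto_sub_nhds_zero_iff.2 tendsto_id
    filter_upwards [mem_nhdsWithin_of_mem_nhds (k0.eventually
      (hM n r B F k D V W c t₀ δ L hq _ (mem u hu) _ hτ)), self_mem_nhdsWithin] with u' k1 k2
    rw [add_assoc, ← add_smul, add_sub_cancel] at k1
    have k3 := hT n r B _ _ k _ _ Z (L.sym _ (mem u hu)) (L.sym _ (mem u' k2)) hq k1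
    exact ⟨k3.1, k3.2⟩

end Vale.Agent.P301Z.Hl.Lmv
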