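import Vale.Agent.P301Z.Hl.Defs
import Vale.Agent.P301Z.Rot.Rtu
import Vale.Agent.P301Z.Lat.Pk

/-!
# P301, block HL: row MOD
-/

open scoped Manifold ContDiff ComplexOrder Topology Matrix
open Set Filter Metric Complex Function
open Vale.Agent.P272.K Vale.Agent.P299.IX Vale.Agent.P299.IX.Fock
open Vale.Agent.P281Z (Mf Co)
open Vale.Agent.P281Z.Hg
open Vale.Agent.P301Z.Lat Vale.Agent.P301Z.Rot

set_option linter.all false

noncomputable section

namespace Vale.Agent.P301Z.Hl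

namespace ModH

variable {n r : ℕ} {B : BB n r} {F : Fr B} {k : Fin r → ℝ} {D : ℕ} {V : Mf D} {W : Fld V} {c : ℕ}
  {t₀ : Cm (c + 1)} {δ : ℝ} (L : LF F k W c t₀ δ) {t : Cm (c + 1)}
  {e e' : Chart (n + n) L.M.V.X} {x : L.M.V.X}

/-- the trivialisation in a chart of the model -/
def Th (e : Chart (n + n) L.M.V.X) (q : Cm (c + 1) × Cm (n + n)) : V.X := L.Θ q.1 (e.symm q.2)

theorem Th_at (h : At e x) : Th L e (t, e x) = L.Θ t x := by
  simp only [Th, e.left_inv h.2]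

theorem Th_cont (ht : t ∈ ball t₀ δ) (h : At e x) : ContinuousAt (Th L e) (t, e x) := by
  have h1 := L.Θc t ht x
  have h2 : ContinuousAt (fun q : Cm (c + 1) × Cm (n + n) => (q.1, e.symm q.2)) (t, e x) :=
    continuousAt_fst.prodMk
      ((e.continuousAt_symm (e.map_source h.2)).comp (f := Prod.snd) continuousAt_snd)
  exact ContinuousAt.comp_of_eq h1 h2 (by simp only [e.left_inv h.2])

/-- the mixed component of the form on the total space -/
def alY (φ : V.X → ℝ) (e : Chart (n + n) L.M.V.X) (q : Cm (c + 1) × Cm (n + n)) (y : V.X)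
    (τ : Cm (c + 1)) (η : Cm (n + n)) : ℝ :=
  (bv (f11 (addH W φ (chartAt (Cm D) y) (chartAt (Cm D) y y)))
    (fderiv ℝ (fun r => chartAt (Cm D) y (Th L e r)) q (τ, 0))
    (fderiv ℝ (fun r => chartAt (Cm D) y (Th L e r)) q (0, η))).re

theorem fd_ch (ht : t ∈ ball t₀ δ) (h : At e x) (h' : At e' x) {g : Chart D V.X}
    (hg : At g (L.Θ t x)) (τ : Cm (c + 1)) (η : Cm (n + n)) :
    fderiv ℝ (fun r => g (Th L e r)) (t, e x) (τ, η) =
      fderiv ℝ (fun r => g (Th L e' r)) (t, e' x) (τ, fderiv ℝ (trn e e') (e x) η) := by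
  have d1 : DifferentiableAt ℝ (fun r => g (Th L e' r)) (t, trn e e' (e x)) := by
    rw [trn_at e' h.2]
    exact (L.Θs t ht x e' g h' hg).differentiableAt (by simp)
  have d2 := ((at_cd h h').differentiableAt (by simp)).hasFDerivAt
  have d3 : HasFDerivAt (fun r : Cm (c + 1) × Cm (n + n) => (r.1, trn e e' r.2)) _ (t, e x) :=
    hasFDerivAt_fst.prodMk (HasFDerivAt.comp (g := trn e e') (f := Prod.snd) (t, e x) d2 hasFDerivAt_snd)
  have d4 := d1.hasFDerivAt.comp (t, e x) d3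
  have k1 : ∀ᶠ z in 𝓝 (e x), e.symm z ∈ e'.source :=
    (e.continuousAt_symm (e.map_source h.2)).eventually_mem
      (by rw [e.left_inv h.2]; exact e'.open_source.mem_nhds h'.2)
  have k2 : (fun r => g (Th L e r)) =ᶠ[𝓝 (t, e x)]
      (fun r => g (Th L e' r)) ∘ fun r : Cm (c + 1) × Cm (n + n) => (r.1, trn e e' r.2) := by
    filter_upwards [(continuousAt_snd (p := (t, e x))).eventually k1] with z hz
    simp only [Th, Function.comp_apply, trn, e'.left_inv hz]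
  rw [k2.fderiv_eq, d4.fderiv, trn_at e' h.2]
  rfl

variable {Θ : OpenPartialHomeomorph V.X (Cm (c + 1) × Cm (n + n))}

theorem key (co : Co D Θ) (fst : ∀ y ∈ Θ.source, (Θ y).1 = L.g y) (ht : t ∈ ball t₀ δ)
    (h : At e x) (hy : L.Θ t x ∈ Θ.source) :
    ContDiffAt ℝ ∞ (fun q => (Θ (Th L e q)).2) (t, e x) ∧
      Θ (L.Θ t x) = (t, (Θ (Th L e (t, e x))).2) ∧ ∀ g : Chart D V.X, At g (L.Θ t x) → ∀ w,
        fderiv ℝ (fun b => Θ (g.symm b)) (g (L.Θ t x)) (fderiv ℝ (fun r => g (Th L e r)) (t, e x) w) =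
          (w.1, fderiv ℝ (fun q => (Θ (Th L e q)).2) (t, e x) w) := by
  have hc := Th_cont L ht h
  have k0 : ∀ g : Chart D V.X, At g (L.Θ t x) →
      ContDiffAt ℝ ∞ (fun b => Θ (g.symm b)) (g (Th L e (t, e x))) ∧
      (fun q => Θ (Th L e q)) =ᶠ[𝓝 (t, e x)] (fun b => Θ (g.symm b)) ∘ fun r => g (Th L e r) := by
    intro g hg
    refine ⟨?_, ?_⟩
    · rw [Th_at L h]
      exact ((co.an _ hy g hg).contDiffAt.restrict_scalars ℝ)
    · filter_upwards [hc.eventually_mem (s := g.source)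
        (by rw [Th_at L h]; exact g.open_source.mem_nhds hg.2)] with z hz
      simp only [Function.comp_apply, g.left_inv hz]
  have k1 : ContDiffAt ℝ ∞ (fun q => Θ (Th L e q)) (t, e x) := by
    obtain ⟨h1, h2⟩ := k0 _ (Lat.at_chart (L.Θ t x))
    exact (h1.comp (t, e x) (L.Θs t ht x e _ h (Lat.at_chart _))).congr_of_eventuallyEq h2
  have k2 : (fun q => Θ (Th L e q)) =ᶠ[𝓝 (t, e x)] fun q => (q.1, (Θ (Th L e q)).2) := by
    filter_upwards [hc.eventually_mem (s := Θ.source)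
        (by rw [Th_at L h]; exact Θ.open_source.mem_nhds hy),
      (continuousAt_fst (p := (t, e x))).eventually_mem (isOpen_ball.mem_nhds ht)] with z hz hz'
    exact Prod.ext ((fst _ hz).trans (L.h1 _ hz' _).2.1) rfl
  refine ⟨k1.snd, ?_, fun g hg w => ?_⟩
  · rw [← Th_at L h]
    exact k2.self_of_nhds
  · obtain ⟨h1, h2⟩ := k0 g hg
    have h3 := (h1.differentiableAt (by simp)).hasFDerivAt.comp (t, e x)
      ((L.Θs t ht x e g h hg).differentiableAt (by simp)).hasFDerivAt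
    have h4 := (hasFDerivAt_fst (p := (t, e x))).prodMk
      (k1.snd.differentiableAt (by simp)).hasFDerivAt
    have h5 := (h3.congr_of_eventuallyEq h2).unique (h4.congr_of_eventuallyEq k2)
    rw [Th_at L h] at h5
    exact congrArg (fun A => A w) h5

theorem fibre {θ : L.M.V.X → (L.Φ t).Y.V.X} (ht : t ∈ ball t₀ δ) (h : At e x)
    (h1 : LeftInverse θ (ψF L t)) (h2 : RightInverse θ (ψF L t)) (hθ : Smo (n + n) (n + n) θ)
    (h3 : ∀ x, (L.Φ t).i (θ x) = L.Θ t x)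
    (hd : ContDiffAt ℝ ∞ (fun q => (Θ (Th L e q)).2) (t, e x))
    {g : Chart (n + n) (L.Φ t).Y.V.X} (hg : At g (θ x)) (v : Cm (n + n)) :
    fderiv ℝ (fun b => (Θ ((L.Φ t).i (g.symm b))).2) (g (θ x)) (dF θ e g x v) =
      fderiv ℝ (fun q => (Θ (Th L e q)).2) (t, e x) (0, v) := by
  have hψ : Smo (n + n) (n + n) (ψF L t) := (L.mor t ht).1
  have he : At e (ψF L t (θ x)) := by rwa [h2 x]
  have d1 := ((hψ.sm g e _ hg he).differentiableAt (by simp)).hasFDerivAt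
  have d2 : HasFDerivAt (fun b => (t, e (ψF L t (g.symm b)))) _ (g (θ x)) :=
    (hasFDerivAt_const t _).prodMk d1
  have d3 : DifferentiableAt ℝ (fun q => (Θ (Th L e q)).2) (t, e (ψF L t (g.symm (g (θ x))))) := by
    rw [g.left_inv hg.2, h2 x]
    exact hd.differentiableAt (by simp)
  have d4 := d3.hasFDerivAt.comp (g (θ x)) d2
  have k1 : ∀ᶠ z in 𝓝 (g (θ x)), ψF L t (g.symm z) ∈ e.source :=
    (hψ.cont.continuousAt.comp (g.continuousAt_symm (g.map_source hg.2))).eventually_mem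
      (by rw [Function.comp_apply, g.left_inv hg.2]; exact e.open_source.mem_nhds he.2)
  have k2 : (fun b => (Θ ((L.Φ t).i (g.symm b))).2) =ᶠ[𝓝 (g (θ x))]
      (fun q => (Θ (Th L e q)).2) ∘ fun b => (t, e (ψF L t (g.symm b))) := by
    filter_upwards [k1] with z hz
    simp only [Th, Function.comp_apply, e.left_inv hz]
    rw [← h3, h1]
  have k3 := dF_inv hθ hψ h2 h hg v
  rw [k2.fderiv_eq, d4.fderiv, g.left_inv hg.2, h2 x]
  exact congrArg (fun w => fderiv ℝ (fun q => (Θ (Th L e q)).2) (t, e x) (0, w)) k3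

/-- the forms `A`, `S` on the model come from the fibre over `t` -/
def Tr (φ : V.X → ℝ) (t : Cm (c + 1)) (A S : Fs L.M.V) : Prop :=
  ∃ (θ : L.M.V.X → (L.Φ t).Y.V.X) (T : Fs (L.Φ t).Y.V → Fs L.M.V) (a u : Fs (L.Φ t).Y.V),
    LeftInverse θ (ψF L t) ∧ RightInverse θ (ψF L t) ∧ Smo (n + n) (n + n) θ ∧
    (∀ x, (L.Φ t).i (θ x) = L.Θ t x) ∧ IsPb θ T ∧ Is11 (wF L φ t) a ∧ Cl2 _ a ∧
    Is20 (L.Φ t).s u ∧ Cl2 _ u ∧ A = T a ∧ S = T u

end ModH

open ModH in
/-- **row MOD** -/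
theorem mod_of (hL : LAT) (hF : FIB) (hP : PCH) : MOD := by
  intro n r B F k D V W c t₀ δ L N φ κ hC
  have h0 : ∀ t, ∃ A S, t ∈ N → Tr L φ t A S := fun t => by
    by_cases ht : t ∈ N
    · obtain ⟨θ, h1, h2, h3, h4⟩ := hF n r B F k D V W c t₀ δ L t (hC.sub ht)
      obtain ⟨T, hT⟩ := pb_ex h3.1
      have hw := R11.kahler (hC.hk t ht).kahler
      obtain ⟨a, ha⟩ := hL.d11.ex hw
      obtain ⟨u, hu, hu', -⟩ := (L.sym t (hC.sub ht)).1.2
      exact ⟨T a, T u, fun _ => ⟨θ, T, a, u, h1, h2, h3.1, h4, hT, ha, (hL.d11.cl hw ha).1, hu, hu',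
        rfl, rfl⟩⟩
    · exact ⟨0, 0, fun h => absurd h ht⟩
  choose A S hAS using h0
  refine ⟨A, S, ⟨⟨fun e q => alY L φ e q (Th L e q), fun t ht => ?_, fun t ht => ?_,
    fun t ht e e' x h h' τ η => ?_, fun t ht e x h => ?_⟩⟩, fun t ht T hT => ?_⟩
  · obtain ⟨θ, T, a, u, -, -, h3, -, hT, -, ha, -, -, h4, -⟩ := hAS t ht
    rw [h4]
    exact cl_pb h3 hT ha
  · obtain ⟨θ, T, a, u, -, -, h3, -, hT, -, -, -, hu, -, h4⟩ := hAS t ht
    rw [h4]
    exact cl_pb h3 hT hu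
  · rw [Th_at L h, Th_at L h', alY, alY, fd_ch L (hC.sub ht) h h' (Lat.at_chart _),
      fd_ch L (hC.sub ht) h h' (Lat.at_chart _), map_zero]
  · have hb := hC.sub ht
    obtain ⟨Q⟩ := hP n r B F k D V W c t₀ δ L N φ κ hC (L.Θ t x) (L.h1 t hb x).1
      (by rw [(L.h1 t hb x).2.1]; exact ht)
    obtain ⟨k1, k2, -⟩ := key L Q.co Q.fst hb h Q.mem
    refine ⟨fun q => (Q.Θ (Th L e q)).2, Q.P, Q.σ, k1, k2 ▸ Q.loc, ?_⟩
    have hc : Tendsto (Th L e) (𝓝 (t, e x)) (𝓝 (L.Θ t x)) := Th_at L h ▸ Th_cont L hb h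
    filter_upwards [hc.eventually Q.fib, hc.eventually Q.tot,
      hc.eventually_mem (Q.Θ.open_source.mem_nhds Q.mem),
      (continuousAt_fst (p := (t, e x))).eventually_mem (hC.opn.mem_nhds ht),
      (continuousAt_snd (p := (t, e x))).eventually_mem
        (e.open_target.mem_nhds (e.map_source h.2))] with q q1 q2 q3 q4 q5
    obtain ⟨t', z⟩ := q
    obtain ⟨x', hx', rfl⟩ : ∃ x', At e x' ∧ e x' = z :=
      ⟨e.symm z, ⟨h.1, e.map_target q5⟩, e.right_inv q5⟩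
    have hb' : t' ∈ ball t₀ δ := hC.sub q4
    rw [Th_at L hx'] at q1 q2 q3
    obtain ⟨k3, k4, k5⟩ := key L Q.co Q.fst hb' hx' q3
    obtain ⟨θ, T, a, u, h1, h2, h3, h4, hT, ha, -, hu, -, hA, hS⟩ := hAS t' q4
    have hg := Lat.at_chart (θ x')
    obtain ⟨m1, m2, m3⟩ := q1 t' hb' (θ x') (h4 x') _ hg
    have m4 := fibre L hb' hx' h1 h2 h3 h4 k3 hg
    have hψ : Smo (n + n) (n + n) (ψF L t') := (L.mor t' hb').1
    refine ⟨?_, fun v v' => ?_, fun v v' => ?_, fun τ η => ?_⟩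
    · have m5 : Bijective (dF θ e (chartAt (Cm (n + n)) (θ x')) x') := by
        refine ⟨LeftInverse.injective (dF_inv h3 hψ h2 hx' hg), fun v => ?_⟩
        have m6 := dF_inv hψ h3 h1 hg (c := e) (by rwa [h2 x']) v
        rw [h2 x'] at m6
        exact ⟨_, m6⟩
      have m6 := m1.comp m5
      rwa [show _ ∘ _ = _ from funext m4] at m6
    · show bv (vl (A t') e (e x')) v v' = _
      rw [hA, bv_dF h3 hT a hx' hg, ha.val hg, m2, m4, m4, k4]
    · show bv (vl (S t') e (e x')) v v' = _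
      rw [hS, bv_dF h3 hT u hx' hg, hu _ _ hg, m3, m4, m4, k4]
    · show alY L φ e (t', e x') (Th L e (t', e x')) τ η = _
      rw [Th_at L hx', alY, q2 _ (Lat.at_chart _), k5 _ (Lat.at_chart _), k5 _ (Lat.at_chart _),
        Complex.ofReal_re, k4]
  · obtain ⟨θ, T', a, u, h1, h2, h3, -, hT', ha, -, hu, -, hA, hS⟩ := hAS t ht
    have hψ : Smo (n + n) (n + n) (ψF L t) := (L.mor t (hC.sub ht)).1
    rw [hA, hS, pb_inv hψ h3 h1 hT hT', pb_inv hψ h3 h1 hT hT']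
    exact ⟨ha, hu⟩

end Vale.Agent.P301Z.Hl
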