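import Vale.Agent.P301Z.Hl.Defs
import Vale.Agent.P301Z.Rot.R0

/-!
# P301, block HL: the Lie derivative of a pull-back, and invariance under the flow
-/

open scoped Manifold ContDiff ComplexOrder Topology Matrix
open Set Filter Metric Complex Function
open Vale.Agent.P272.K Vale.Agent.P299.IX Vale.Agent.P299.IX.Fock
open Vale.Agent.P281Z (Mf Co)
open Vale.Agent.P281Z.Hg
open Vale.Agent.P301Z.Lat Vale.Agent.P301Z.Rot

noncomputable section

namespace Vale.Agent.P301Z.Hl

namespace PblA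

variable {d : ℕ} {E E' : Type} [NormedAddCommGroup E] [NormedSpace ℝ E]
  [NormedAddCommGroup E'] [NormedSpace ℝ E']

theorem bL_df {η : E → Fo d} {q : E} (h : DifferentiableAt ℝ η q) :
    DifferentiableAt ℝ (fun r => bL (η r)) q := by
  have k : ContDiffAt ℝ 1 (fun u : Fo d => bL u) (η q) := bL_cd contDiffAt_id
  exact (k.differentiableAt one_ne_zero).comp q h

theorem bL_fd' {η : E → Fo d} {q : E} (h : DifferentiableAt ℝ η q) (w : E) (b c : Cm d) :
    fderiv ℝ (fun r => bv (η r) b c) q w = fderiv ℝ (fun r => bL (η r)) q w b c := by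
  have k := bL_df h
  simp only [← bL_apply]
  rw [fderiv_clm_apply (k.clm_apply (differentiableAt_const _)) (differentiableAt_const _),
    fderiv_clm_apply k (differentiableAt_const _)]
  simp

/-- the product rule -/
theorem prod3 {B : E → Cm d →L[ℝ] Cm d →L[ℝ] ℂ} {A A' : E → Cm d} {q : E}
    (hB : DifferentiableAt ℝ B q) (hA : DifferentiableAt ℝ A q) (hA' : DifferentiableAt ℝ A' q)
    (w : E) : fderiv ℝ (fun r => B r (A r) (A' r)) q w = fderiv ℝ B q w (A q) (A' q) +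
      B q (fderiv ℝ A q w) (A' q) + B q (A q) (fderiv ℝ A' q w) := by
  rw [fderiv_clm_apply (hB.clm_apply hA) hA', fderiv_clm_apply hB hA]
  simp only [add_apply, ContinuousLinearMap.comp_apply,
    ContinuousLinearMap.flip_apply]
  ring

variable {c : E → E'} {φ X : E × Cm d → Cm d} {a : E' × Cm d → Cm d} {q : E × Cm d} {τ : E}

theorem pair_fd (hc : DifferentiableAt ℝ c q.1) (hφ : DifferentiableAt ℝ φ q) :
    HasFDerivAt (fun r : E × Cm d => (c r.1, φ r))
      (((fderiv ℝ c q.1).comp (ContinuousLinearMap.fst ℝ E (Cm d))).prod (fderiv ℝ φ q)) q :=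
  (hc.hasFDerivAt.comp q hasFDerivAt_fst).prodMk hφ.hasFDerivAt

theorem d2 (hφ : ContDiffAt ℝ 2 φ q) : DifferentiableAt ℝ (fderiv ℝ φ) q :=
  (hφ.fderiv_right (m := 1) (by norm_num)).differentiableAt one_ne_zero

theorem app_fd (hφ : ContDiffAt ℝ 2 φ q) (b w : E × Cm d) :
    fderiv ℝ (fun r => fderiv ℝ φ r b) q w = fderiv ℝ (fderiv ℝ φ) q b w := by
  rw [fderiv_clm_apply (d2 hφ) (differentiableAt_const _)]
  simp only [add_apply, ContinuousLinearMap.comp_apply,
    ContinuousLinearMap.flip_apply, fderiv_fun_const, Pi.zero_apply, zero_apply,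
    map_zero, zero_add]
  exact hφ.isSymmSndFDerivAt (by simp) w b

theorem key (hc : DifferentiableAt ℝ c q.1) (hφ : ContDiffAt ℝ 2 φ q)
    (hX : DifferentiableAt ℝ X q) (ha : DifferentiableAt ℝ a (c q.1, φ q))
    (h : ∀ᶠ r in 𝓝 q, fderiv ℝ φ r (τ, X r) = a (c r.1, φ r)) (v : Cm d) :
    fderiv ℝ a (c q.1, φ q) (0, fderiv ℝ φ q (0, v)) =
      fderiv ℝ (fderiv ℝ φ) q (0, v) (τ, X q) + fderiv ℝ φ q (0, fderiv ℝ X q (0, v)) := by
  have h1 : HasFDerivAt (fun r => a (c r.1, φ r)) _ q :=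
    ha.hasFDerivAt.comp q (pair_fd hc (hφ.differentiableAt (by norm_num)))
  have h2 : HasFDerivAt (fun r => fderiv ℝ φ r (τ, X r)) _ q :=
    (d2 hφ).hasFDerivAt.clm_apply ((hasFDerivAt_const τ q).prodMk hX.hasFDerivAt)
  have h3 := congrArg (· (0, v)) ((h1.congr_of_eventuallyEq h).unique h2)
  simpa [add_comm] using h3

end PblA

open PblA in
theorem pbl : PBL := by
  intro d E E' _ _ _ _ c φ X a η η' q τ hc hφ hX ha hη h v v'
  have hd := hφ.differentiableAt (by norm_num)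
  have k0 := h.self_of_nhds
  have k1 := key hc hφ hX ha (h.mono fun r hr => hr.1)
  have e : (fun r => bv (η r) v v') =ᶠ[𝓝 q] fun r => bL (η' (c r.1, φ r))
      (fderiv ℝ φ r (0, v)) (fderiv ℝ φ r (0, v')) := h.mono fun r hr =>
    (hr.2 v v').trans (bL_apply _ _ _).symm
  have hB : HasFDerivAt (fun r : E × Cm d => bL (η' (c r.1, φ r))) _ q :=
    HasFDerivAt.comp (G := Cm d →L[ℝ] Cm d →L[ℝ] ℂ) (g := fun r => bL (η' r)) q
      (bL_df hη).hasFDerivAt (pair_fd hc hd)
  have hA : ∀ b, DifferentiableAt ℝ (fun r => fderiv ℝ φ r b) q := fun b =>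
    (d2 hφ).clm_apply (differentiableAt_const _)
  rw [lie, lie, e.fderiv_eq, prod3 hB.differentiableAt (hA _) (hA _), hB.fderiv, bL_fd' hη,
    app_fd hφ, app_fd hφ, k1, k1, k0.2, k0.2, ← k0.1]
  simp only [← bL_apply, map_add, add_apply, ContinuousLinearMap.comp_apply,
    ContinuousLinearMap.prod_apply, ContinuousLinearMap.coe_fst']
  ring

namespace PblA

variable {d p : ℕ} {M : Mf d} {N : Set (Cm p)} {X : Chart d M.X → Cm p × Cm d → Cm d}
  {η : Cm p → Fs M} {t τ : Cm p} {ε : ℝ} {h h' : ℝ → M.X → M.X}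

theorem fl_smo (hF : Fl N X t τ ε h h') {u : ℝ} (hu : u ∈ Ioo (-ε) ε) : Smo d d (h u) :=
  ⟨continuous_iff_continuousAt.2 fun x => ContinuousAt.comp (f := fun y => (u, y))
      (g := fun r : ℝ × M.X => h r.1 r.2) (hF.cont u hu x)
      (continuousAt_const.prodMk continuousAt_id),
    fun e e' x he he' => ContDiffAt.comp (f := fun z => (u, z))
      (g := fun r : ℝ × Cm d => e' (h r.1 (e.symm r.2))) (e x) (hF.sm u hu e e' x he he')
      (contDiffAt_const.prodMk contDiffAt_id)⟩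

theorem fd_snd {E : Type} [NormedAddCommGroup E] [NormedSpace ℝ E] {φ : E × Cm d → Cm d}
    {r : E × Cm d} (hφ : DifferentiableAt ℝ φ r) (v : Cm d) :
    fderiv ℝ (fun z => φ (r.1, z)) r.2 v = fderiv ℝ φ r (0, v) := by
  have k : HasFDerivAt (fun z => φ (r.1, z)) _ r.2 :=
    HasFDerivAt.comp (g := φ) r.2 hφ.hasFDerivAt (hasFDerivAt_prodMk_right r.1 r.2)
  rw [k.fderiv]
  rfl

theorem fd_fst {F : Type} [NormedAddCommGroup F] [NormedSpace ℝ F] {φ : ℝ × Cm d → F}
    {r : ℝ × Cm d} (hφ : DifferentiableAt ℝ φ r) :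
    HasDerivAt (fun u => φ (u, r.2)) (fderiv ℝ φ r (1, 0)) r.1 :=
  HasFDerivAt.comp_hasDerivAt (l := φ) (f := fun u => (u, r.2)) r.1 hφ.hasFDerivAt
    ((hasDerivAt_id r.1).prodMk (hasDerivAt_const r.1 r.2))

theorem der_zero (hP : PBL) (hX : VF N X) (hη : SmF N η) (hF : Fl N X t τ ε h h')
    {T : ℝ → Fs M → Fs M} (hT : ∀ u ∈ Ioo (-ε) ε, IsPb (h u) (T u)) {u : ℝ}
    (hu : u ∈ Ioo (-ε) ε) (hL : IsLie τ X η (t + u • τ) 0) {e : Chart d M.X} {x : M.X}
    (he : At e x) (v v' : Cm d) :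
    HasDerivAt (fun s : ℝ => bv (vl (T s (η (t + s • τ))) e (e x)) v v') 0 u := by
  obtain ⟨e', he'⟩ : ∃ e' : Chart d M.X, At e' (h u x) := ⟨_, Lat.at_chart _⟩
  have hφ : ContDiffAt ℝ 2 (fun r : ℝ × Cm d => e' (h r.1 (e.symm r.2))) (u, e x) :=
    (hF.sm u hu e e' x he he').of_le (by norm_cast)
  have hc : HasDerivAt (fun s : ℝ => t + s • τ) τ u := by
    simpa using ((hasDerivAt_id u).smul_const τ).const_add t
  have hx : e.symm (e x) = x := e.left_inv he.2
  have c1 : ContinuousAt (fun r : ℝ × Cm d => h r.1 (e.symm r.2)) (u, e x) :=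
    ContinuousAt.comp (f := fun r : ℝ × Cm d => (r.1, e.symm r.2))
      (g := fun r : ℝ × M.X => h r.1 r.2) (hF.cont u hu _)
      (continuousAt_fst.prodMk (ContinuousAt.comp (f := Prod.snd) (g := e.symm)
        (e.continuousAt_symm (e.map_source he.2)) continuousAt_snd))
  have ev : ∀ᶠ r : ℝ × Cm d in 𝓝 (u, e x),
      fderiv ℝ (fun r : ℝ × Cm d => e' (h r.1 (e.symm r.2))) r (1, 0) =
        X e' (t + r.1 • τ, e' (h r.1 (e.symm r.2))) ∧ ∀ v v',
      bv (vl (T r.1 (η (t + r.1 • τ))) e r.2) v v' =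
        bv (vq η e' (t + r.1 • τ, e' (h r.1 (e.symm r.2))))
          (fderiv ℝ (fun r : ℝ × Cm d => e' (h r.1 (e.symm r.2))) r (0, v))
          (fderiv ℝ (fun r : ℝ × Cm d => e' (h r.1 (e.symm r.2))) r (0, v')) := by
    filter_upwards [continuousAt_fst.eventually (isOpen_Ioo.mem_nhds hu),
      continuousAt_snd.eventually (e.open_target.mem_nhds (e.map_source he.2)),
      c1.eventually (e'.open_source.mem_nhds (by simpa only [hx] using he'.2)),
      hφ.eventually (by simp)] with r h1 h2 h3 h4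
    have h5 := h4.differentiableAt (by norm_num)
    have h6 : At e' (h r.1 (e.symm r.2)) := ⟨he'.1, h3⟩
    refine ⟨(fd_fst h5).unique (hF.ode r.1 h1 e' _ h6), fun v v' => ?_⟩
    have h7 := bv_pb (fl_smo hF h1) (hT _ h1) (η (t + r.1 • τ)) ⟨he.1, e.map_target h2⟩ h6 v v'
    rw [e.right_inv h2] at h7
    rw [h7, ← fd_snd h5, ← fd_snd h5]
  have dη : DifferentiableAt ℝ (vq η e') (t + u • τ, e' (h u (e.symm (e x)))) := by
    rw [hx]
    exact (hη.sm _ (hF.mem u hu) e' _ he').differentiableAt (by simp)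
  have k := hP d ℝ (Cm p) (fun s => t + s • τ) (fun r => e' (h r.1 (e.symm r.2))) (fun _ => 0)
    (X e') (fun r => vl (T r.1 (η (t + r.1 • τ))) e r.2) (vq η e') (u, e x) 1 hc.differentiableAt
    hφ (differentiableAt_const _) (by
      show DifferentiableAt ℝ (X e') (t + u • τ, e' (h u (e.symm (e x))))
      rw [hx]
      exact (hX.sm _ (hF.mem u hu) e' _ he').differentiableAt (by simp)) dη ev v v'
  have dF : DifferentiableAt ℝ (fun r : ℝ × Cm d => bv (vl (T r.1 (η (t + r.1 • τ))) e r.2) v v')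
      (u, e x) := by
    have k1 : DifferentiableAt ℝ (fun r : ℝ × Cm d =>
        bL (vq η e' (t + r.1 • τ, e' (h r.1 (e.symm r.2))))) (u, e x) :=
      bL_df (DifferentiableAt.comp (g := vq η e') (u, e x) dη
        ((DifferentiableAt.comp (g := fun s : ℝ => t + s • τ) (u, e x) hc.differentiableAt
          differentiableAt_fst).prodMk (hφ.differentiableAt (by norm_num))))
    refine ((k1.clm_apply ((d2 hφ).clm_apply (differentiableAt_const (0, v)))).clm_apply
      ((d2 hφ).clm_apply (differentiableAt_const (0, v')))).congr_of_eventuallyEq ?_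
    exact ev.mono fun r hr => (hr.2 v v').trans (bL_apply _ _ _).symm
  have k2 := fd_fst dF
  simp only [hx, fderiv_eq_smul_deriv, hc.deriv, one_smul] at k
  rw [← hL e' _ he', lie] at k
  simp only [← bL_apply, fderiv_fun_const, Pi.zero_apply, zero_apply, map_zero, add_zero] at k
  simp only [← bL_apply] at k2 ⊢
  rw [k] at k2
  have k3 : vl (0 : Fs M) e' (e' (h u x)) = 0 := rfl
  rwa [k3, show bL (0 : Fo d) = 0 from map_zero (bLL d)] at k2

end PblA

open PblA in
theorem inv_of (hP : PBL) : INV := by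
  intro d p M N X η t τ ε h h' hX hη hF hL u hu T₀ hT₀
  have ex : ∀ s, ∃ T : Fs M → Fs M, s ∈ Ioo (-ε) ε → IsPb (h s) T := fun s => by
    by_cases hs : s ∈ Ioo (-ε) ε
    · obtain ⟨T, hT⟩ := pb_ex (fl_smo hF hs)
      exact ⟨T, fun _ => hT⟩
    · exact ⟨id, fun k => absurd k hs⟩
  choose T hT using ex
  have h0 : (0 : ℝ) ∈ Ioo (-ε) ε := ⟨neg_lt_zero.2 hF.pos, hF.pos⟩
  have e0 : T 0 = id := by
    have k1 := hT 0 h0
    have k2 := fl_smo hF h0
    rw [show h 0 = id from funext hF.zero] at k1 k2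
    exact (pb1T d M.X d M.X id k2).2.1 _ _ k1 (pbc d M.X d M.X f1a k1b').1
  have ht : t ∈ N := by simpa using hF.mem 0 h0
  rw [(pb1T d M.X d M.X _ (fl_smo hF hu)).2.1 _ _ hT₀ (hT u hu)]
  refine ext_F fun e x he => bv_ext
    (cl_dg (cl_pb (fl_smo hF hu) (hT u hu) (hη.cl _ (hF.mem u hu))) he) (cl_dg (hη.cl t ht) he)
    fun v v' => ?_
  have k := fun s hs => der_zero hP hX hη hF hT (u := s) hs (hL s hs) he v v'
  have k1 := isOpen_Ioo.is_const_of_deriv_eq_zero isPreconnected_Ioo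
    (fun s hs => (k s hs).differentiableAt.differentiableWithinAt) (fun s hs => (k s hs).deriv)
    hu h0
  simpa [e0] using k1

theorem invT : INV := inv_of pbl

end Vale.Agent.P301Z.Hl
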