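import Vale.Agent.P301Z.Hl.Rtu
import Vale.Agent.P301.H450.Q

/-!
# P301, block HL: the rows UNQ and TRF
-/

open scoped Manifold ContDiff ComplexOrder Topology Matrix
open Function
open Vale.Agent.P272.K
open Vale.Agent.P281Z.Hg Vale.Agent.P301Z.Lat Vale.Agent.P301Z.Rot
open Vale.Agent.P301.H450
open Vale.Agent.P299.H835 (smulM)

noncomputable section

namespace Vale.Agent.P301Z.Hl

theorem unq (hL : LAT) : UNQ := by
  intro n r B Y s w w' p k κ h hw' hk hk'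
  have := conn Y
  have h1 : SData s w κ := ⟨h.1.1.1, h.1.2, hk⟩
  have c1 := INT.IsKahler.isClosedForm hk.kahler
  obtain ⟨u, hu, e⟩ := hL.ddc h.2.1 h.2.2 hw'.2 h.2.1.2
  refine (hk_pair h1 ⟨h.1.1.1, h.1.2, hk'⟩).2 rfl ?_
  rw [q_congr (b' := fun e z => w e z + P301.H599.ddc u e z) (fun _ _ _ => rfl) e, q_add_right h1 c1 c1
    (isClosed_ddc hu), q_hess_right h1 c1 hu, add_zero, q_self h1]

namespace TrfH

variable {n r : ℕ} {B : BB n r} {P P' : Pt B} {k : Fin r → ℝ} {p p' : Fin r → ℂ} {Z : MK B}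

theorem hk_smul {Y : MK B} {s w : Fld Y.V} {κ t : ℝ} (hs : Y.Sym s p) (hk : IsHK s w κ)
    (ht : 0 < t) (h : t ^ 2 * κ = 1) : IsHK s (smulM t w) 1 := by
  have := conn Y
  refine isHK_of_rel one_pos (P299.H835.isKahler_smulM ht hk.kahler) hs.1.1 hs.2 fun e x hx => ?_
  simp only [smulM, Matrix.transpose_smul, Matrix.smul_mul, Matrix.mul_smul, hk.rel e x hx,
    smul_smul]
  rw [← h]
  push_cast
  ring_nf

theorem mv_symm (h : Mv P P' k) : Mv P' P k := by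
  obtain ⟨w, w', κ, κ', μ, f, f', u, a, u', a', T, hμ, c, c', k, k', i, i', m, m', h1, h2, h3, h4,
    hT, e1, e2⟩ := h
  obtain ⟨T', hT'⟩ := pb_ex m'.1
  have inv := pb_inv m'.1 m.1 i' hT' hT
  refine ⟨w', w, κ', κ, μ⁻¹, f', f, u', a', u, a, T', inv_pos.2 hμ, c', c, k', k, i', i, m', m, h3,
    h4, h1, h2, hT', by rw [← e1, inv], ?_⟩
  rw [← inv (u' - _), e2, map_smul, smul_smul, Complex.ofReal_inv,
    inv_mul_cancel₀ (Complex.ofReal_ne_zero.2 hμ.ne'), one_smul]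

theorem q_im (hL : LAT) {Y : MK B} {s : Fld Y.V} (h : Y.Sym s p) :
    qC B.q (p - star p) (p - star p) = -2 * qC B.q p (star p) := by
  have k := hL.rel.pp h.1 h.1
  rw [sub_eq_add_neg, ← neg_one_smul ℂ (star p)]
  simp only [qC_add_l, qC_add_r, qC_smul_l, qC_smul_r, qC_star, k, qC_comm _ B.symm (star p) p,
    star_zero]
  ring

theorem trf1 (hL : LAT) (hs : P.Y.Sym P.s p) (hs' : P'.Y.Sym P'.s p') (hq : 0 < qR B.q k k)
    (h : Mv P P' k) (hR : RotK P k Z) : RotK P' k Z := by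
  obtain ⟨w, w', κ, κ', μ, f, f', u, a, u', a', T, hμ, c, c', k0, k0', i, i', m, m', h1, h2, h3, h4,
    hT, e1, e2⟩ := h
  obtain ⟨w₁, lam, hl, c₁, k₁, g, g', sZ, wZ, u₁, a₁, uZ, aZ, S, j, j', n₁, n₂, z1, -, -, b1, b2,
    b3, -, hS, -, e3⟩ := hR
  obtain rfl := b1.uniq h1
  have q1 : qR B.q (lam • k) (lam • k) = lam ^ 2 * qR B.q k k := by
    rw [qR_smul_l, qR_smul_r]
    ring
  have H₁ : P.Y.HK P.s w₁ p (lam • k) := ⟨hs, c₁, q1 ▸ mul_pos (pow_pos hl 2) hq⟩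
  have r0 := kappa_eq hL ⟨hs, c, hq⟩ k0
  have r1 := kappa_eq hL H₁ k₁
  have r2 := kappa_eq hL ⟨hs', c', hq⟩ k0'
  have pp : (0 : ℝ) < (qC B.q p (star p)).re := (Complex.lt_def.1 (hL.rel.ppb H₁)).1
  have l1 : lam ^ 2 * κ = 1 := mul_right_cancel₀ pp.ne' (by
    linear_combination r1 / 2 - q1 / 2 - lam ^ 2 * r0 / 2)
  have ea : a₁ = (lam : ℂ) • a := ext_F fun e x hx => by
    rw [b2.val hx, vl_smul, h2.val hx, ← hL.pwa.f11_smul,
      ← unq hL _ _ _ _ _ _ _ _ _ _ H₁ (kc_smul hL c hl) k₁ (hk_smul hs k0 hl l1) e x hx]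
    rfl
  obtain ⟨-, v, v1, v2, v3⟩ := hs.1
  obtain ⟨-, v', v1', v2', v3'⟩ := hs'.1
  obtain rfl := h1.uniq v1
  obtain rfl := h3.uniq v1'
  have e4 : p' - star p' = (μ : ℂ) • (p - star p) := by
    have k := m.2 T hT _ (v2'.sub v2'.cj)
    rw [e2, map_smul, map_sub, map_sub, P.Y.m.cj _ v2, P'.Y.m.cj _ v2', v3, v3'] at k
    exact k.symm
  have e5 : (qC B.q p' (star p')).re = μ ^ 2 * (qC B.q p (star p)).re := by
    have k := q_im hL hs'
    rw [e4, qC_smul_l, qC_smul_r, q_im hL hs] at k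
    rw [← Complex.re_ofReal_mul]
    push_cast
    exact congrArg Complex.re (by linear_combination k / 2)
  have l2 : (μ * lam) ^ 2 * κ' = 1 := mul_right_cancel₀ pp.ne' (by
    linear_combination (qC B.q p (star p)).re * l1 + lam ^ 2 * (r0 - r2) / 2 -
      lam ^ 2 * κ' * e5)
  obtain ⟨T', hT'⟩ := pb_ex m'.1
  have inv := pb_inv m'.1 m.1 i' hT' hT
  obtain ⟨S, rfl⟩ := pb_lin n₁.1 hS
  have hμ' := Complex.ofReal_ne_zero.2 hμ.ne'
  refine ⟨_, μ * lam, mul_pos hμ hl, kc_smul hL c' (mul_pos hμ hl), Rot.rtu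
    (s' := fun e z => (μ : ℂ) • sZ e z) (u' := (μ : ℂ) • uZ) (a := ((μ * lam : ℝ) : ℂ) • a') hs'
    (hk_smul hs' k0' (mul_pos hμ hl) l2) (g := g ∘ f') (g' := f ∘ g')
    (fun y => (congrArg f (j _)).trans (i' y)) (fun z => (congrArg g (i _)).trans (j' z))
    (mor_comp m' n₁) (mor_comp n₂ m) ⟨fun e x hx i j => analyticAt_const.mul (z1.holo e x hx i j),
      fun e x hx => ?_, fun e e' x hx hx' => ?_⟩ (fun e x hx => ?_) h3 (fun e x hx => ?_)
    (pb_comp m'.1 n₁.1 hT' hS).2 ?_⟩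
  · rw [Matrix.transpose_smul, z1.alt e x hx, smul_neg]
  · rw [z1.change e e' x hx hx', Matrix.mul_smul, Matrix.smul_mul]
  · rw [vl_smul, b3 e x hx, hL.pwa.f20_smul]
  · rw [vl_smul, h4.val hx, ← hL.pwa.f11_smul]
    rfl
  · have k1 := congrArg T' e3
    have k2 := congrArg T' e2
    rw [ea, ← e1, map_smul, map_add, map_sub, map_smul, inv] at k1
    rw [inv, map_smul, map_sub] at k2
    rw [comp_apply, map_smul, map_smul, Complex.ofReal_mul]
    linear_combination (norm := module) (μ : ℂ) • k1 + k2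

end TrfH

theorem trf (hL : LAT) : TRF := fun _ _ _ _ _ _ _ _ _ hs hs' hq h =>
  ⟨TrfH.trf1 hL hs hs' hq h, TrfH.trf1 hL hs' hs hq (TrfH.mv_symm h)⟩

end Vale.Agent.P301Z.Hl
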