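import Vale.Agent.P301Z.Hl.Al2
import Vale.Agent.P301Z.Hl.Car
import Vale.Agent.P301Z.Hl.Cb
import Vale.Agent.P301Z.Hl.Der
import Vale.Agent.P301Z.Hl.Fib
import Vale.Agent.P301Z.Hl.Flow
import Vale.Agent.P301Z.Hl.Glb
import Vale.Agent.P301Z.Hl.Hor
import Vale.Agent.P301Z.Hl.Hz
import Vale.Agent.P301Z.Hl.Kill
import Vale.Agent.P301Z.Hl.Lmv
import Vale.Agent.P301Z.Hl.Lv
import Vale.Agent.P301Z.Hl.Mod
import Vale.Agent.P301Z.Hl.Pbl
import Vale.Agent.P301Z.Hl.Pch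
import Vale.Agent.P301Z.Hl.Trf
import Vale.Agent.P301Z.Cs.Cyv
import Vale.Agent.P301Z.Lat.La

/-!
# P301, block HL: the rotation is constant in a local family
-/

namespace Vale.Agent.P301Z.Hl

theorem glb : GLB :=
  Glb.glb_of lv_ok smb (hz_of lv_ok) (al1_of lv_ok) (al2_of lv_ok (al1_of lv_ok)) pbl
    (hor_of lv_ok (hz_of lv_ok) smb)

theorem hl (hL : Lat.LAT) : HL :=
  Lmv.hl_of (Lmv.lmv_of hL (Cs.cyv (Lat.la2_of hL)) fib (mod_of hL fib (pch_of lv_ok)) glb typ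
    (kill_of hL) (lie_of der car (cls_of (cb_of hL))) flow (inv_of pbl)) (trf hL)

end Vale.Agent.P301Z.Hl
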