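import Vale.Agent.P301Z.Sk
import Vale.Agent.P301Z.Lat.Sk
import Vale.Agent.P301Z.Rot.Typ
import Vale.Agent.P281Z.Mf.Loc

/-!
# P301, block HL: the horizontal lift (definitions and rows)
-/

open scoped Manifold ContDiff ComplexOrder Topology Matrix
open Set Filter Metric Complex Function
open Vale.Agent.P272.K Vale.Agent.P299.IX Vale.Agent.P299.IX.Fock
open Vale.Agent.P281Z (Mf Co)
open Vale.Agent.P281Z.Hg
open Vale.Agent.P299.D (pullM)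
open Vale.Agent.P301.H599 (IsHolTwoForm)
open Vale.Agent.P301.H450 (IsHK)
open Vale.Agent.P301Z.Lat Vale.Agent.P301Z.Rot

noncomputable section

namespace Vale.Agent.P301Z.Hl

variable {d p : ℕ}

/-! ### Local statements -/

/-- the value of `i∂∂̄P` on two real vectors -/
def lv {E : Type} [NormedAddCommGroup E] [NormedSpace ℝ E] [NormedSpace ℂ E] (P : E → ℝ)
    (q v v' : E) : ℝ :=
  (fderiv ℝ (fderiv ℝ P) q (I • v) v' - fderiv ℝ (fderiv ℝ P) q v (I • v')) / 2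

/-- the Lie derivative of the two-forms `η` on the fibres along the field `(τ, a)` -/
def lie {E : Type} [NormedAddCommGroup E] [NormedSpace ℝ E] (τ : E) (a : E × Cm d → Cm d)
    (η : E × Cm d → Fo d) (q : E × Cm d) (v v' : Cm d) : ℂ :=
  fderiv ℝ (fun r => bv (η r) v v') q (τ, a q) + bv (η q) (fderiv ℝ a q (0, v)) v' +
    bv (η q) v (fderiv ℝ a q (0, v'))

/-- the metric on the fibres with the potential `P` -/
def gP (P : Cm p × Cm d → ℝ) (q : Cm p × Cm d) : Mx d := cHess (fun z => P (q.1, z)) q.2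

/-- hyperkähler data in holomorphic coordinates near `q` -/
structure Loc (κ : Cm p → ℝ) (P : Cm p × Cm d → ℝ) (σ : Cm p × Cm d → Mx d) (q : Cm p × Cm d) :
    Prop where
  sm : ContDiffAt ℝ ∞ P q
  an : ∀ j k, AnalyticAt ℂ (fun r => σ r j k) q
  pt : ∀ᶠ r in 𝓝 q, 0 < κ r.1 ∧ (gP P r).PosDef ∧ (σ r)ᵀ = -σ r ∧ (σ r).det ≠ 0 ∧
    gP P r * ((σ r)ᴴ)⁻¹ * (gP P r)ᵀ = (κ r.1 : ℂ) • σ r

/-- `(τ, a)` is horizontal near `q` -/
def Hor (P : Cm p × Cm d → ℝ) (τ : Cm p) (a : Cm p × Cm d → Cm d) (q : Cm p × Cm d) : Prop :=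
  ContDiffAt ℝ ∞ a q ∧ ∀ᶠ r in 𝓝 q, ∀ η, lv P r (τ, a r) (0, η) = 0

/-- the number `-∂_τ log κ` -/
def mu (κ : Cm p → ℝ) (τ t : Cm p) : ℂ :=
  -((fderiv ℝ κ t τ : ℂ) - I * fderiv ℝ κ t (I • τ)) / (2 * κ t)

/-- **LV**: the form `lv` -/
structure LV : Prop where
  hess : ∀ {d : ℕ} (f : Cm d → ℝ) (z v v' : Cm d), ContDiffAt ℝ 2 f z →
    (lv f z v v' : ℂ) = bv (f11 (cHess f z)) v v'
  fib : ∀ {p d : ℕ} (P : Cm p × Cm d → ℝ) (q : Cm p × Cm d) (v v' : Cm d), ContDiffAt ℝ 2 P q →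
    (lv P q (0, v) (0, v') : ℂ) = bv (f11 (gP P q)) v v'
  hol : ∀ {D p d : ℕ} (P : Cm p × Cm d → ℝ) (h : Cm D → Cm p × Cm d) (z v v' : Cm D),
    AnalyticAt ℂ h z → ContDiffAt ℝ 2 P (h z) →
    lv (fun y => P (h y)) z v v' = lv P (h z) (fderiv ℝ h z v) (fderiv ℝ h z v')

/-- **HZ**: the horizontal field exists -/
def HZ : Prop := ∀ (p d : ℕ) (P : Cm p × Cm d → ℝ) (q : Cm p × Cm d) (τ : Cm p),
  ContDiffAt ℝ ∞ P q → (gP P q).PosDef → ∃ a, Hor P τ a q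

/-- **AL1**: the horizontal field preserves the metric -/
def AL1 : Prop := ∀ (p d : ℕ) (P : Cm p × Cm d → ℝ) (q : Cm p × Cm d) (τ : Cm p)
  (a : Cm p × Cm d → Cm d), ContDiffAt ℝ ∞ P q → Hor P τ a q →
  ∀ v v', lie τ a (fun r => f11 (gP P r)) q v v' = 0

/-- **AL2**: the Lie derivative of the symplectic form -/
def AL2 : Prop := ∀ (p d : ℕ) (κ : Cm p → ℝ) (P : Cm p × Cm d → ℝ) (σ : Cm p × Cm d → Mx d)
  (q : Cm p × Cm d) (τ : Cm p) (a : Cm p × Cm d → Cm d), 0 < d → Loc κ P σ q → Hor P τ a q →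
  ∃ H : Mx d, ((gP P q)⁻¹ * H).trace = 0 ∧ ∀ v v', lie τ a (fun r => f20 (σ r)) q v v' =
    mu κ τ q.1 * bv (f20 (σ q)) v v' + bv (f11 H) v v'

/-- **PBL**: the Lie derivative of a pull-back -/
def PBL : Prop := ∀ (d : ℕ) (E E' : Type) [NormedAddCommGroup E] [NormedSpace ℝ E]
  [NormedAddCommGroup E'] [NormedSpace ℝ E'] (c : E → E') (φ X : E × Cm d → Cm d)
  (a : E' × Cm d → Cm d) (η : E × Cm d → Fo d) (η' : E' × Cm d → Fo d) (q : E × Cm d) (τ : E),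
  DifferentiableAt ℝ c q.1 → ContDiffAt ℝ 2 φ q → DifferentiableAt ℝ X q →
  DifferentiableAt ℝ a (c q.1, φ q) → DifferentiableAt ℝ η' (c q.1, φ q) →
  (∀ᶠ r in 𝓝 q, fderiv ℝ φ r (τ, X r) = a (c r.1, φ r) ∧ ∀ v v', bv (η r) v v' =
    bv (η' (c r.1, φ r)) (fderiv ℝ φ r (0, v)) (fderiv ℝ φ r (0, v'))) →
  ∀ v v', lie τ X η q v v' = lie (fderiv ℝ c q.1 τ) a η' (c q.1, φ q) (fderiv ℝ φ q (0, v))
    (fderiv ℝ φ q (0, v'))

/-- **SMB**: two-forms with smooth values are smooth -/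
def SMB : Prop := ∀ (d : ℕ) (E : Type) [NormedAddCommGroup E] [NormedSpace ℝ E] (u : E → Fo d)
  (q : E), (∀ᶠ r in 𝓝 q, dg 2 *ᵥ u r = u r) → (∀ v v', ContDiffAt ℝ ∞ (fun r => bv (u r) v v') q) →
  ContDiffAt ℝ ∞ u q

/-- **TYP**: a linear map which respects the symplectic forms respects the types -/
def TYP : Prop := ∀ (d : ℕ) (w s g σ H : Mx d) (L : Cm d →L[ℝ] Cm d), sᵀ = -s → σᵀ = -σ →
  σ.det ≠ 0 → g.PosDef → Bijective L → (g⁻¹ * H).trace = 0 →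
  (∀ v v', bv (f11 w) v v' = bv (f11 g) (L v) (L v')) →
  (∀ v v', bv (f20 s) v v' = bv (f20 σ) (L v) (L v')) →
  ∃ H' : Mx d, (w⁻¹ * H').trace = 0 ∧ ∀ v v', bv (f11 H') v v' = bv (f11 H) (L v) (L v')

/-! ### Families on a fixed manifold -/

section fam

variable {M : Mf d}

/-- the values of a family of forms in a chart -/
abbrev vq (η : Cm p → Fs M) (e : Chart d M.X) (q : Cm p × Cm d) : Fo d := vl (η q.1) e q.2

/-- smooth families of closed two-forms -/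
structure SmF (N : Set (Cm p)) (η : Cm p → Fs M) : Prop where
  cl : ∀ t ∈ N, Cl2 M (η t)
  sm : ∀ t ∈ N, ∀ e x, At e x → ContDiffAt ℝ ∞ (vq η e) (t, e x)

/-- smooth families of vector fields -/
structure VF (N : Set (Cm p)) (X : Chart d M.X → Cm p × Cm d → Cm d) : Prop where
  sm : ∀ t ∈ N, ∀ e x, At e x → ContDiffAt ℝ ∞ (X e) (t, e x)
  ch : ∀ t ∈ N, ∀ e e' x, At e x → At e' x →
    X e' (t, e' x) = fderiv ℝ (trn e e') (e x) (X e (t, e x))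

/-- the flow of `X` along the line `t + u τ` -/
structure Fl (N : Set (Cm p)) (X : Chart d M.X → Cm p × Cm d → Cm d) (t τ : Cm p) (ε : ℝ)
    (h h' : ℝ → M.X → M.X) : Prop where
  pos : 0 < ε
  mem : ∀ u ∈ Ioo (-ε) ε, t + u • τ ∈ N
  zero : ∀ x, h 0 x = x
  li : ∀ u ∈ Ioo (-ε) ε, LeftInverse (h' u) (h u)
  ri : ∀ u ∈ Ioo (-ε) ε, RightInverse (h' u) (h u)
  smo' : ∀ u ∈ Ioo (-ε) ε, Smo d d (h' u)
  cont : ∀ u ∈ Ioo (-ε) ε, ∀ x, ContinuousAt (fun r : ℝ × M.X => h r.1 r.2) (u, x)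
  sm : ∀ u ∈ Ioo (-ε) ε, ∀ (e e' : Chart d M.X) x, At e x → At e' (h u x) →
    ContDiffAt ℝ ∞ (fun r : ℝ × Cm d => e' (h r.1 (e.symm r.2))) (u, e x)
  ode : ∀ u ∈ Ioo (-ε) ε, ∀ (e : Chart d M.X) x, At e (h u x) →
    HasDerivAt (fun u' => e (h u' x)) (X e (t + u • τ, e (h u x))) u

/-- `β` is the Lie derivative of the family `η` at `t` -/
def IsLie (τ : Cm p) (X : Chart d M.X → Cm p × Cm d → Cm d) (η : Cm p → Fs M) (t : Cm p)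
    (β : Fs M) : Prop :=
  ∀ e x, At e x → ∀ v v', bv (vl β e (e x)) v v' = lie τ (X e) (vq η e) (t, e x) v v'

/-- `η'` is the derivative of the family `η` at `t` -/
def IsDer (τ : Cm p) (η : Cm p → Fs M) (t : Cm p) (η' : Fs M) : Prop :=
  ∀ e x, At e x → vl η' e (e x) = fderiv ℝ (vq η e) (t, e x) (τ, 0)

end fam

/-- **FLOW** -/
def FLOW : Prop := ∀ (d p : ℕ) (M : Mf d) (N : Set (Cm p)) (X : Chart d M.X → Cm p × Cm d → Cm d),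
  IsOpen N → VF N X → ∀ t ∈ N, ∀ τ, ∃ ε h h', Fl N X t τ ε h h'

/-- **INV**: the flow preserves a family with vanishing Lie derivative -/
def INV : Prop := ∀ (d p : ℕ) (M : Mf d) (N : Set (Cm p)) (X : Chart d M.X → Cm p × Cm d → Cm d)
  (η : Cm p → Fs M) (t τ : Cm p) (ε : ℝ) (h h' : ℝ → M.X → M.X), VF N X → SmF N η →
  Fl N X t τ ε h h' → (∀ u ∈ Ioo (-ε) ε, IsLie τ X η (t + u • τ) 0) →
  ∀ u ∈ Ioo (-ε) ε, ∀ T, IsPb (h u) T → T (η (t + u • τ)) = η t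

/-- **DER**: the derivative of a family of closed forms -/
def DER : Prop := ∀ (d p : ℕ) (M : Mf d) (N : Set (Cm p)) (η : Cm p → Fs M), IsOpen N →
  SmF N η → ∀ t ∈ N, ∀ τ, ∃ η', Cl2 M η' ∧ IsDer τ η t η'

/-- **CAR**: the formula of Cartan -/
def CAR : Prop := ∀ (d : ℕ) (M : Mf d) (u : Fs M) (ξ : Chart d M.X → Cm d → Cm d), Cl2 M u →
  (∀ e x, At e x → ContDiffAt ℝ ∞ (ξ e) (e x)) →
  (∀ e e' x, At e x → At e' x → ξ e' (e' x) = fderiv ℝ (trn e e') (e x) (ξ e (e x))) →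
  ∃ β, Ex2 M β ∧ ∀ e x, At e x → ∀ v v', bv (vl β e (e x)) v v' =
    fderiv ℝ (fun z => bv (vl u e z) v v') (e x) (ξ e (e x)) +
      bv (vl u e (e x)) (fderiv ℝ (ξ e) (e x) v) v' + bv (vl u e (e x)) v (fderiv ℝ (ξ e) (e x) v')

/-- **CB**: small closed forms have small classes -/
def CB : Prop := ∀ (n r : ℕ) (B : BB n r) (M : MK B), ∃ (A : ℕ)
  (e : Fin A → Chart (n + n) M.V.X) (K : Fin A → Set M.V.X) (C : ℝ), (∀ i, IsCompact (K i)) ∧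
  (∀ i, ∀ x ∈ K i, At (e i) x) ∧ ∀ (u : Fs M.V) (ε : ℝ), Cl2 M.V u → 0 ≤ ε →
    (∀ i, ∀ x ∈ K i, ‖vl u (e i) (e i x)‖ ≤ ε) → ‖M.m.c u‖ ≤ C * ε

/-- **CLS**: the derivative of the class -/
def CLS : Prop := ∀ (n r p : ℕ) (B : BB n r) (M : MK B) (N : Set (Cm p)) (η : Cm p → Fs M.V)
  (η' : Fs M.V), IsOpen N → SmF N η → ∀ t ∈ N, ∀ τ, Cl2 M.V η' → IsDer τ η t η' →
  HasDerivAt (fun u : ℝ => M.m.c (η (t + u • τ))) (M.m.c η') 0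

/-- **LIE**: the Lie derivative is a closed form, its class is the derivative of the class -/
def LIE : Prop := ∀ (n r p : ℕ) (B : BB n r) (M : MK B) (N : Set (Cm p)) (η : Cm p → Fs M.V)
  (X : Chart (n + n) M.V.X → Cm p × Cm (n + n) → Cm (n + n)), IsOpen N → SmF N η → VF N X →
  ∀ t ∈ N, ∀ τ, ∃ β, Cl2 M.V β ∧ IsLie τ X η t β ∧
    HasDerivAt (fun u : ℝ => M.m.c (η (t + u • τ))) (M.m.c β) 0

/-- a family of hyperkähler structures on the fixed manifold `M` -/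
structure Md (M : Mf d) (N : Set (Cm p)) (κ : Cm p → ℝ) (A S : Cm p → Fs M) where
  al : Chart d M.X → Cm p × Cm d → Cm p → Cm d → ℝ
  clA : ∀ t ∈ N, Cl2 M (A t)
  clS : ∀ t ∈ N, Cl2 M (S t)
  ch : ∀ t ∈ N, ∀ e e' x, At e x → At e' x → ∀ τ η,
    al e (t, e x) τ η = al e' (t, e' x) τ (fderiv ℝ (trn e e') (e x) η)
  loc : ∀ t ∈ N, ∀ e x, At e x → ∃ (φ : Cm p × Cm d → Cm d) (P : Cm p × Cm d → ℝ)
    (σ : Cm p × Cm d → Mx d), ContDiffAt ℝ ∞ φ (t, e x) ∧ Loc κ P σ (t, φ (t, e x)) ∧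
    ∀ᶠ q in 𝓝 (t, e x), (Bijective fun v => fderiv ℝ φ q (0, v)) ∧
      (∀ v v', bv (vq A e q) v v' =
        bv (f11 (gP P (q.1, φ q))) (fderiv ℝ φ q (0, v)) (fderiv ℝ φ q (0, v'))) ∧
      (∀ v v', bv (vq S e q) v v' =
        bv (f20 (σ (q.1, φ q))) (fderiv ℝ φ q (0, v)) (fderiv ℝ φ q (0, v'))) ∧
      ∀ τ η, al e q τ η = lv P (q.1, φ q) (τ, fderiv ℝ φ q (τ, 0)) (0, fderiv ℝ φ q (0, η))

/-- **HOR**: the horizontal field on the fixed manifold -/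
def HOR : Prop := ∀ (d p : ℕ) (M : Mf d) (N : Set (Cm p)) (κ : Cm p → ℝ) (A S : Cm p → Fs M)
  (G : Md M N κ A S), IsOpen N → SmF N A ∧ SmF N S ∧ ∀ τ, ∃ X, VF N X ∧ ∀ t ∈ N, ∀ e x, At e x →
    ∀ η, (G.al e (t, e x) τ η : ℂ) + bv (vl (A t) e (e x)) (X e (t, e x)) η = 0

/-- the forms `a`, `s`, `b` at a point: `b - μ s` is primitive of type `(1,1)` -/
def Pt3 (μ : ℂ) (a s b : Cm d → Cm d → ℂ) : Prop :=
  ∃ (g σ H : Mx d) (L : Cm d →L[ℝ] Cm d), σᵀ = -σ ∧ σ.det ≠ 0 ∧ g.PosDef ∧ Bijective L ∧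
    (g⁻¹ * H).trace = 0 ∧ (∀ v v', a v v' = bv (f11 g) (L v) (L v')) ∧
    (∀ v v', s v v' = bv (f20 σ) (L v) (L v')) ∧
    ∀ v v', b v v' = μ * s v v' + bv (f11 H) (L v) (L v')

/-- **GLB**: the Lie derivatives along the horizontal field -/
def GLB : Prop := ∀ (d p : ℕ) (M : Mf d) (N : Set (Cm p)) (κ : Cm p → ℝ) (A S : Cm p → Fs M),
  0 < d → Md M N κ A S → IsOpen N → SmF N A ∧ SmF N S ∧ ∀ τ, ∃ X, VF N X ∧ ∀ t ∈ N,
    IsLie τ X A t 0 ∧ ∀ e x, At e x → Pt3 (mu κ τ t) (bv (vl (A t) e (e x)))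
      (bv (vl (S t) e (e x))) (lie τ (X e) (vq S e) (t, e x))

/-! ### One fibre -/

/-- **KILL** -/
def KILL : Prop := ∀ (n r : ℕ) (B : BB n r) (Y : MK B) (s w : Fld Y.V) p k (β : Fs Y.V) (ν : ℂ),
  Y.HK s w p k → Cl2 Y.V β → Y.m.c β = 0 →
  (∀ y, ∃ e, At e y ∧ ∃ H : Mx (n + n), ((w e (e y))⁻¹ * H).trace = 0 ∧ vl β e (e y) =
    (ν • f20 (s e (e y)) + f11 H) - cjv (ν • f20 (s e (e y)) + f11 H)) → β = 0

/-- **NRM**: the constant of a hyperkähler metric -/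
def NRM : Prop := ∀ (n r : ℕ) (B : BB n r) (Y : MK B) (s w : Fld Y.V) p k (κ : ℝ), Y.HK s w p k →
  IsHK s w κ → qR B.q k k = 2 * κ * (qC B.q p (star p)).re

/-- **UNQ**: uniqueness of the hyperkähler metric -/
def UNQ : Prop := ∀ (n r : ℕ) (B : BB n r) (Y : MK B) (s w w' : Fld Y.V) p k (κ : ℝ),
  Y.HK s w p k → Y.Kc w' k → IsHK s w κ → IsHK s w' κ → ∀ e x, At e x → w' e (e x) = w e (e x)

/-- **RTU**: the symplectic form determines the rotation -/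
def RTU : Prop := ∀ (n r : ℕ) (B : BB n r) (Y Z : MK B) (s w : Fld Y.V) p k (g : Y.V.X → Z.V.X)
  (g' : Z.V.X → Y.V.X) (s' : Fld Z.V) (u a : Fs Y.V) (u' : Fs Z.V) (T : Fs Z.V → Fs Y.V),
  Y.Sym s p → Y.Kc w k → IsHK s w 1 → LeftInverse g' g → RightInverse g' g → Y.Mor Z g →
  Z.Mor Y g' → IsHolTwoForm s' → Is20 s u → Is11 w a → Is20 s' u' → IsPb g T →
  (2 : ℂ) • T u' = a - u + (dR Y.V).cj u → Rot Y s w Z

variable {n r : ℕ} {B : BB n r}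

/-- a diffeomorphism respects `ω` and the line of `Im σ` -/
def Mv (P P' : Pt B) (k : Fin r → ℝ) : Prop :=
  ∃ (w : Fld P.Y.V) (w' : Fld P'.Y.V) (κ κ' μ : ℝ) (f : P.Y.V.X → P'.Y.V.X)
    (f' : P'.Y.V.X → P.Y.V.X) (u a : Fs P.Y.V) (u' a' : Fs P'.Y.V) (T : Fs P'.Y.V → Fs P.Y.V),
    0 < μ ∧ P.Y.Kc w k ∧ P'.Y.Kc w' k ∧ IsHK P.s w κ ∧ IsHK P'.s w' κ' ∧ LeftInverse f' f ∧
    RightInverse f' f ∧ P.Y.Mor P'.Y f ∧ P'.Y.Mor P.Y f' ∧ Is20 P.s u ∧ Is11 w a ∧ Is20 P'.s u' ∧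
    Is11 w' a' ∧ IsPb f T ∧ T a' = a ∧
    T (u' - (dR P'.Y.V).cj u') = (μ : ℂ) • (u - (dR P.Y.V).cj u)

/-- **TRF**: the rotation is transported -/
def TRF : Prop := ∀ (n r : ℕ) (B : BB n r) (P P' : Pt B) (k : Fin r → ℝ) p p' (Z : MK B),
  P.Y.Sym P.s p → P'.Y.Sym P'.s p' → 0 < qR B.q k k → Mv P P' k → (RotK P k Z ↔ RotK P' k Z)

/-! ### Local families -/

section lf

variable {F : Fr B} {k : Fin r → ℝ} {D : ℕ} {V : Mf D} {W : Fld V} {c : ℕ} {t₀ : Cm (c + 1)}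
  {δ : ℝ}

/-- the metric on the fibre given by the potential `φ` on the total space -/
def wF (L : LF F k W c t₀ δ) (φ : V.X → ℝ) (t : Cm (c + 1)) : Fld (L.Φ t).Y.V :=
  addH (pullM (L.Φ t).i W) fun y => φ ((L.Φ t).i y)

/-- the map from the fibre to the model -/
def ψF (L : LF F k W c t₀ δ) (t : Cm (c + 1)) : (L.Φ t).Y.V.X → L.M.V.X :=
  fun z => L.Ψ ((L.Φ t).i z)

/-- a smooth potential of the hyperkähler metrics of the fibres over `N` -/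
structure Cy (L : LF F k W c t₀ δ) (N : Set (Cm (c + 1))) (φ : V.X → ℝ) (κ : Cm (c + 1) → ℝ) :
    Prop where
  opn : IsOpen N
  sub : N ⊆ ball t₀ δ
  sm : ∀ y ∈ L.O, L.g y ∈ N → ∀ e : Chart D V.X, At e y →
    ContDiffAt ℝ ∞ (fun z => φ (e.symm z)) (e y)
  hk : ∀ t ∈ N, IsHK (L.Φ t).s (wF L φ t) (κ t)

/-- the data in a product chart at `y` -/
structure Pc (L : LF F k W c t₀ δ) (φ : V.X → ℝ) (κ : Cm (c + 1) → ℝ) (y : V.X) where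
  Θ : OpenPartialHomeomorph V.X (Cm (c + 1) × Cm (n + n))
  P : Cm (c + 1) × Cm (n + n) → ℝ
  σ : Cm (c + 1) × Cm (n + n) → Mx (n + n)
  co : Co D Θ
  mem : y ∈ Θ.source
  fst : ∀ y' ∈ Θ.source, (Θ y').1 = L.g y'
  loc : Loc κ P σ (Θ y)
  fib : ∀ᶠ y' in 𝓝 y, ∀ t ∈ ball t₀ δ, ∀ z, (L.Φ t).i z = y' →
    ∀ e : Chart (n + n) (L.Φ t).Y.V.X, At e z →
    Bijective (fderiv ℝ (fun b => (Θ ((L.Φ t).i (e.symm b))).2) (e z)) ∧
    (∀ v v', bv (f11 (wF L φ t e (e z))) v v' = bv (f11 (gP P (Θ y')))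
      (fderiv ℝ (fun b => (Θ ((L.Φ t).i (e.symm b))).2) (e z) v)
      (fderiv ℝ (fun b => (Θ ((L.Φ t).i (e.symm b))).2) (e z) v')) ∧
    ∀ v v', bv (f20 ((L.Φ t).s e (e z))) v v' = bv (f20 (σ (Θ y')))
      (fderiv ℝ (fun b => (Θ ((L.Φ t).i (e.symm b))).2) (e z) v)
      (fderiv ℝ (fun b => (Θ ((L.Φ t).i (e.symm b))).2) (e z) v')
  tot : ∀ᶠ y' in 𝓝 y, ∀ e : Chart D V.X, At e y' → ∀ v v',
    bv (f11 (addH W φ e (e y'))) v v' = lv P (Θ y') (fderiv ℝ (fun b => Θ (e.symm b)) (e y') v)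
      (fderiv ℝ (fun b => Θ (e.symm b)) (e y') v')

end lf

/-- **CYV**: the hyperkähler metrics of the fibres have a smooth potential -/
def CYV : Prop := ∀ (n r : ℕ) (B : BB n r) (F : Fr B) (k : Fin r → ℝ) (D : ℕ) (V : Mf D)
  (W : Fld V) (c : ℕ) (t₀ : Cm (c + 1)) (δ : ℝ) (L : LF F k W c t₀ δ), 0 < qR B.q k k →
  ∀ t ∈ ball t₀ δ, ∃ N φ κ, t ∈ N ∧ Cy L N φ κ

/-- **FIB**: the inverse of the map from the fibre to the model -/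
def FIB : Prop := ∀ (n r : ℕ) (B : BB n r) (F : Fr B) (k : Fin r → ℝ) (D : ℕ) (V : Mf D)
  (W : Fld V) (c : ℕ) (t₀ : Cm (c + 1)) (δ : ℝ) (L : LF F k W c t₀ δ), ∀ t ∈ ball t₀ δ,
  ∃ θ : L.M.V.X → (L.Φ t).Y.V.X, LeftInverse θ (ψF L t) ∧ RightInverse θ (ψF L t) ∧
    L.M.Mor (L.Φ t).Y θ ∧ ∀ x, (L.Φ t).i (θ x) = L.Θ t x

/-- **PCH**: product charts -/
def PCH : Prop := ∀ (n r : ℕ) (B : BB n r) (F : Fr B) (k : Fin r → ℝ) (D : ℕ) (V : Mf D)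
  (W : Fld V) (c : ℕ) (t₀ : Cm (c + 1)) (δ : ℝ) (L : LF F k W c t₀ δ) N φ κ, Cy L N φ κ →
  ∀ y ∈ L.O, L.g y ∈ N → Nonempty (Pc L φ κ y)

/-- **MOD**: the family on the model -/
def MOD : Prop := ∀ (n r : ℕ) (B : BB n r) (F : Fr B) (k : Fin r → ℝ) (D : ℕ) (V : Mf D)
  (W : Fld V) (c : ℕ) (t₀ : Cm (c + 1)) (δ : ℝ) (L : LF F k W c t₀ δ) N φ κ, Cy L N φ κ →
  ∃ A S : Cm (c + 1) → Fs L.M.V, Nonempty (Md L.M.V N κ A S) ∧ ∀ t ∈ N, ∀ T, IsPb (ψF L t) T →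
    Is11 (wF L φ t) (T (A t)) ∧ Is20 (L.Φ t).s (T (S t))

/-- **LMV**: nearby fibres with the same real part of the period -/
def LMV : Prop := ∀ (n r : ℕ) (B : BB n r) (F : Fr B) (k : Fin r → ℝ) (D : ℕ) (V : Mf D)
  (W : Fld V) (c : ℕ) (t₀ : Cm (c + 1)) (δ : ℝ) (L : LF F k W c t₀ δ), 0 < qR B.q k k →
  ∀ t ∈ ball t₀ δ, ∀ τ : Cm (c + 1), (τ 0).re = 0 →
    ∀ᶠ u : ℝ in 𝓝 0, Mv (L.Φ t).toPt (L.Φ (t + u • τ)).toPt k

end Vale.Agent.P301Z.Hl
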