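import Vale.Agent.P301Z.Hl.Hor

/-!
# P301, block HL: the Lie derivative of the symplectic form
-/

open scoped Manifold ContDiff ComplexOrder Topology Matrix
open Set Filter Metric Complex Function
open Vale.Agent.P272.K Vale.Agent.P299.IX Vale.Agent.P299.IX.Fock
open Vale.Agent.P281Z.Hg
open Vale.Agent.P301Z.Lat Vale.Agent.P301Z.Rot

noncomputable section

namespace Vale.Agent.P301Z.Hl

namespace Al2

variable {d p : ℕ}

section mat

variable {E : Type} [NormedAddCommGroup E] [NormedSpace ℝ E] {q : E} {F G : E → Mx d}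

/-- the entries are differentiable -/
def Df (𝕜 : Type) [NontriviallyNormedField 𝕜] [NormedAlgebra 𝕜 ℂ] {E : Type}
    [NormedAddCommGroup E] [NormedSpace 𝕜 E] (F : E → Mx d) (q : E) : Prop :=
  ∀ j k, DifferentiableAt 𝕜 (fun r => F r j k) q

/-- the derivative of the entries -/
def Dm (F : E → Mx d) (q W : E) : Mx d := Matrix.of fun j k => fderiv ℝ (fun r => F r j k) q W

theorem Df.mul (hF : Df ℝ F q) (hG : Df ℝ G q) : Df ℝ (fun r => F r * G r) q := fun j k => by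
  simp only [Matrix.mul_apply]
  exact DifferentiableAt.fun_sum fun l _ => (hF j l).mul (hG l k)

theorem Dm_mul (hF : Df ℝ F q) (hG : Df ℝ G q) (W : E) :
    Dm (fun r => F r * G r) q W = Dm F q W * G q + F q * Dm G q W := by
  ext j k
  simp only [Dm, Matrix.mul_apply, Matrix.of_apply, Matrix.add_apply]
  rw [fderiv_fun_sum fun l _ => (hF j l).fun_mul (hG l k), _root_.sum_apply,
    ← Finset.sum_add_distrib]
  refine Finset.sum_congr rfl fun l _ => ?_
  rw [fderiv_fun_mul (hF j l) (hG l k)]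
  simp only [_root_.add_apply, _root_.smul_apply, smul_eq_mul]
  ring

theorem Dm_smul {c : E → ℂ} (hc : DifferentiableAt ℝ c q) (hF : Df ℝ F q) (W : E) :
    Dm (fun r => c r • F r) q W = fderiv ℝ c q W • F q + c q • Dm F q W := by
  ext j k
  simp only [Dm, Matrix.smul_apply, Matrix.of_apply, Matrix.add_apply, smul_eq_mul]
  rw [fderiv_fun_mul hc (hF j k)]
  simp only [_root_.add_apply, _root_.smul_apply, smul_eq_mul]
  ring

theorem Dm_congr (h : F =ᶠ[𝓝 q] G) (W : E) : Dm F q W = Dm G q W := by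
  ext j k
  have : (fun r => F r j k) =ᶠ[𝓝 q] fun r => G r j k := h.mono fun r hr => by simp only [hr]
  simp only [Dm, Matrix.of_apply, this.fderiv_eq]

theorem fd_dot (hF : Df ℝ F q) (v v' : Cm d) :
    DifferentiableAt ℝ (fun r => v ⬝ᵥ F r *ᵥ v') q ∧
      ∀ W, fderiv ℝ (fun r => v ⬝ᵥ F r *ᵥ v') q W = v ⬝ᵥ Dm F q W *ᵥ v' := by
  have h : HasFDerivAt (fun r => ∑ j, v j * ∑ k, F r j k * v' k)
      (∑ j, v j • ∑ k, v' k • fderiv ℝ (fun r => F r j k) q) q :=
    HasFDerivAt.fun_sum fun j _ =>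
      (HasFDerivAt.fun_sum fun k _ => (hF j k).hasFDerivAt.mul_const (v' k)).const_mul (v j)
  refine ⟨h.differentiableAt, fun W => ?_⟩
  refine (congrArg (fun L => L W) h.fderiv).trans ?_
  simp only [_root_.sum_apply, _root_.smul_apply, smul_eq_mul,
    dotProduct, Matrix.mulVec, Dm, Matrix.of_apply, mul_comm]

end mat

section hol

variable {E : Type} [NormedAddCommGroup E] [NormedSpace ℂ E] {q : E} {F : E → Mx d}

theorem Df.det (hF : Df ℂ F q) : DifferentiableAt ℂ (fun r => (F r).det) q := by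
  simp only [Matrix.det_apply']
  exact DifferentiableAt.fun_sum fun s _ =>
    (HasFDerivAt.finsetProd fun i _ => (hF (s i) i).hasFDerivAt).differentiableAt.const_mul _

theorem Df.inv (hF : Df ℂ F q) (h : (F q).det ≠ 0) : Df ℂ (fun r => (F r)⁻¹) q := fun j k => by
  simp only [Matrix.inv_def, Ring.inverse_eq_inv', Matrix.smul_apply, smul_eq_mul,
    Matrix.adjugate_apply]
  refine (hF.det.inv h).mul (Df.det fun a b => ?_)
  by_cases e : a = k
  · simp only [Matrix.updateRow_apply, e, if_true]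
    exact differentiableAt_const _
  · simp only [Matrix.updateRow_apply, e, if_false]
    exact hF a b

theorem Df.re (hF : Df ℂ F q) : Df ℝ F q := fun j k => (hF j k).restrictScalars ℝ

theorem Dm_I (hF : Df ℂ F q) (W : E) : Dm F q (I • W) = I • Dm F q W := by
  ext j k
  simp only [Dm, Matrix.of_apply, Matrix.smul_apply, (hF j k).fderiv_restrictScalars ℝ,
    ContinuousLinearMap.coe_restrictScalars', map_smul]

theorem Df.ct (hF : Df ℝ F q) : Df ℝ (fun r => (F r)ᴴ) q ∧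
    ∀ W, Dm (fun r => (F r)ᴴ) q W = (Dm F q W)ᴴ := by
  have h := fun j k => (conjCLE : ℂ →L[ℝ] ℂ).hasFDerivAt.comp q (hF k j).hasFDerivAt
  refine ⟨fun j k => (h j k).differentiableAt, fun W => ?_⟩
  ext j k
  exact congrArg (fun L => L W) (h j k).fderiv

end hol

theorem split (L : Cm d →L[ℝ] Cm d) : ∃ A B : Mx d, ∀ v, L v = A *ᵥ v + B *ᵥ star v := by
  refine ⟨Matrix.of fun j k => (L (Pi.single k 1) j - I * L (Pi.single k I) j) / 2,
    Matrix.of fun j k => (L (Pi.single k 1) j + I * L (Pi.single k I) j) / 2, fun v => ?_⟩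
  have h : v = ∑ k, ((v k).re • (Pi.single k 1 : Cm d) + (v k).im • (Pi.single k I : Cm d)) := by
    funext j
    simp only [Finset.sum_apply, Pi.add_apply, Pi.smul_apply, Pi.single_apply, smul_ite, smul_zero,
      Finset.sum_add_distrib, Finset.sum_ite_eq, Finset.mem_univ, if_true, real_smul, mul_one,
      re_add_im]
  funext j
  conv_lhs => rw [h]
  simp only [map_sum, map_add, map_smul, Finset.sum_apply, Pi.add_apply, Pi.smul_apply,
    Matrix.mulVec, dotProduct, Matrix.of_apply, Pi.star_apply, ← Finset.sum_add_distrib, real_smul]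
  refine Finset.sum_congr rfl fun k _ => ?_
  have e1 : v k = (v k).re + (v k).im * I := (re_add_im _).symm
  have e2 : star (v k) = (v k).re - (v k).im * I := by
    apply Complex.ext <;> simp
  rw [e2]
  conv_rhs => enter [1, 2]; rw [e1]
  linear_combination ((v k).im * L (Pi.single k I) j) * I_mul_I

theorem dot_l (A B : Mx d) (v v' : Cm d) : (A *ᵥ v) ⬝ᵥ B *ᵥ v' = v ⬝ᵥ (Aᵀ * B) *ᵥ v' := by
  rw [← Matrix.mulVec_mulVec, Matrix.dotProduct_mulVec v, Matrix.vecMul_transpose]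

theorem dot_t (A : Mx d) (v v' : Cm d) : v' ⬝ᵥ A *ᵥ v = v ⬝ᵥ Aᵀ *ᵥ v' := by
  rw [Matrix.dotProduct_mulVec, dotProduct_comm, ← Matrix.mulVec_transpose]

variable {P : Cm p × Cm d → ℝ} {q : Cm p × Cm d}

theorem df_g (hL : LV) (hP : ContDiffAt ℝ ∞ P q) : Df ℝ (gP P) q := fun j k => by
  have h := fun v v' : Cm d => ((ofRealCLM.contDiff.contDiffAt.comp q (HorA.lv_cd (c := id) hP
    contDiffAt_id (contDiffAt_const (c := ((0 : Cm p), v)))
    (contDiffAt_const (c := ((0 : Cm p), v'))))).differentiableAt (by simp))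
  refine (((h (Pi.single j 1) (Pi.single k I)).sub
    ((h (Pi.single j 1) (Pi.single k 1)).const_mul I)).mul_const 2⁻¹).congr_of_eventuallyEq ?_
  filter_upwards [(hP.of_le (m := 2)
    (WithTop.coe_le_coe.2 (le_top : (2 : ℕ∞) ≤ ⊤))).eventually (by simp)] with r hr
  simp only [Pi.sub_apply, comp_apply, ofRealCLM_apply, id, hL.fib P r _ _ hr, bv_f11, star_single,
    dot_single, star_one, star_def, conj_I]
  linear_combination (gP P r j k) * I_mul_I

theorem blk {τ : Cm p} {a : Cm p × Cm d → Cm d} {g : Cm p × Cm d → Mx d} {A B : Mx d}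
    (hg : Df ℝ g q) (ha : ∀ v, fderiv ℝ a q (0, v) = A *ᵥ v + B *ᵥ star v)
    (h : ∀ v v', lie τ a (fun r => f11 (g r)) q v v' = 0) :
    Dm g q (τ, a q) + Aᵀ * g q + g q * A.map (starRingEnd ℂ) = 0 ∧ Bᵀ * g q = (g q)ᵀ * B := by
  have h0 : ∀ v v' : Cm d, bv (0 : Fo d) v v' = 0 := fun v v' => by
    simpa using bv_smul 0 (0 : Fo d) v v'
  obtain ⟨-, k2, k3⟩ := blocks_of (u := (0 : Fo d)) (A := 0) (B := 0) (D := 0) fun v v' => by
    simp [h0]
  obtain ⟨-, l2, l3⟩ := blocks_of (u := (0 : Fo d))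
      (A := g q * B.map (starRingEnd ℂ) - (g q * B.map (starRingEnd ℂ))ᵀ)
      (B := Dm g q (τ, a q) + Aᵀ * g q + g q * A.map (starRingEnd ℂ))
      (D := Bᵀ * g q - (Bᵀ * g q)ᵀ) fun v v' => by
    have e := h v v'
    simp only [lie, bv_f11, ha] at e
    rw [fderiv_const_mul ((fd_dot hg _ _).1.fun_sub (fd_dot hg _ _).1),
      fderiv_fun_sub (fd_dot hg _ _).1 (fd_dot hg _ _).1] at e
    simp only [_root_.smul_apply, _root_.sub_apply, (fd_dot hg _ _).2,
      smul_eq_mul, star_add, star_mv, star_star, add_dotProduct, Matrix.mulVec_add,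
      dotProduct_add, dot_l, Matrix.mulVec_mulVec] at e
    simp only [h0, Matrix.add_mulVec, Matrix.sub_mulVec, dotProduct_add, dotProduct_sub, ← dot_t]
    linear_combination I * e + (v ⬝ᵥ (g q * B.map (starRingEnd ℂ)) *ᵥ v' -
      v' ⬝ᵥ (g q * B.map (starRingEnd ℂ)) *ᵥ v + v ⬝ᵥ Dm g q (τ, a q) *ᵥ star v' +
      v ⬝ᵥ (Aᵀ * g q) *ᵥ star v' + v ⬝ᵥ (g q * A.map (starRingEnd ℂ)) *ᵥ star v' -
      (v' ⬝ᵥ Dm g q (τ, a q) *ᵥ star v + v' ⬝ᵥ (Aᵀ * g q) *ᵥ star v +
        v' ⬝ᵥ (g q * A.map (starRingEnd ℂ)) *ᵥ star v) + star v ⬝ᵥ (Bᵀ * g q) *ᵥ star v' -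
      star v' ⬝ᵥ (Bᵀ * g q) *ᵥ star v) * (-I_mul_I)
  refine ⟨l2.symm.trans k2, ?_⟩
  have := sub_eq_zero.1 (l3.symm.trans k3)
  rwa [Matrix.transpose_mul, Matrix.transpose_transpose] at this

theorem hor_I {τ : Cm p} {a : Cm p × Cm d → Cm d} (h : Hor P τ a q) :
    Hor P (I • τ) (fun r => I • a r) q := by
  refine ⟨h.1.const_smul I, h.2.mono fun r hr η => ?_⟩
  have e := hr (I • η)
  have e1 : ((I • τ, I • a r) : Cm p × Cm d) = I • (τ, a r) := rfl
  have e2 : (((0 : Cm p), I • η) : Cm p × Cm d) = I • (0, η) := by simp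
  rw [e2] at e
  rw [e1]
  simp only [lv, smul_smul, I_mul_I, neg_smul, one_smul, map_neg,
    _root_.neg_apply] at e ⊢
  linarith

theorem alg {x z y y' n s k k₁ k₂ c : ℂ} (hk : k ≠ 0)
    (n1 : -(k * x + y) + n + -(k * z + y') = k₁ * c + k * s)
    (n2 : -(I * (k * x) - I * y) + -I * n + -(I * (k * z) - I * y') = k₂ * c + k * (I * s)) :
    s + x + z = -(k₁ - I * k₂) / (2 * k) * c := by
  rw [div_mul_eq_mul_div, eq_div_iff (mul_ne_zero two_ne_zero hk)]
  linear_combination -n1 + I * n2 + (k * s + k * x + k * z - y + n - y') * I_mul_I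

end Al2

open Al2 in
theorem al2_of (hL : LV) (h1 : AL1) : AL2 := by
  intro p d κ P σ q τ a hd hl ha
  obtain ⟨A, B, hAB⟩ := split ((fderiv ℝ a q).comp (ContinuousLinearMap.inr ℝ (Cm p) (Cm d)))
  replace hAB : ∀ v, fderiv ℝ a q (0, v) = A *ᵥ v + B *ᵥ star v := hAB
  have hg := df_g hL hl.sm
  obtain ⟨b1, b2⟩ := blk hg hAB (h1 p d P q τ a hl.sm ha)
  obtain ⟨b3, -⟩ := blk (A := I • A) (B := I • B) hg (fun v => by
    rw [fderiv_fun_const_smul (ha.1.differentiableAt (by simp)), _root_.smul_apply,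
      hAB, smul_add, Matrix.smul_mulVec, Matrix.smul_mulVec])
    (h1 p d P q _ _ hl.sm (hor_I ha))
  obtain ⟨p1, p2, p3, p4, p5⟩ := hl.pt.self_of_nhds
  have hσ : Df ℂ σ q := fun j k => (hl.an j k).differentiableAt
  obtain ⟨hR, hR'⟩ := (hσ.inv p4).re.ct
  have hgt : Df ℝ (fun r => (gP P r)ᵀ) q := fun j k => hg k j
  have hX := (hg.mul hR).mul hgt
  have ev : (fun r => gP P r * ((σ r)⁻¹)ᴴ * (gP P r)ᵀ) =ᶠ[𝓝 q] fun r => (κ r.1 : ℂ) • σ r :=
    hl.pt.mono fun r hr => by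
      simp only [Matrix.conjTranspose_nonsing_inv, hr.2.2.2.2]
  obtain ⟨j, k, hjk⟩ : ∃ j k, σ q j k ≠ 0 := by
    by_contra hn
    push Not at hn
    have : Nonempty (Fin d) := ⟨⟨0, hd⟩⟩
    exact p4 (by rw [show σ q = 0 from Matrix.ext hn, Matrix.det_zero])
  have hk : DifferentiableAt ℝ (fun r : Cm p × Cm d => (κ r.1 : ℂ)) q := by
    refine ((hX j k).mul ((hσ.re j k).inv hjk)).congr_of_eventuallyEq ?_
    filter_upwards [ev, (hσ j k).continuousAt.eventually_ne hjk] with r e1 e2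
    simp only [Pi.mul_apply, Pi.inv_apply, e1, Matrix.smul_apply, smul_eq_mul,
      mul_inv_cancel_right₀ e2]
  have hκ : DifferentiableAt ℝ κ q.1 :=
    reCLM.differentiableAt.comp q.1 (DifferentiableAt.comp (g := fun r : Cm p × Cm d => (κ r.1 : ℂ))
      (f := fun t => (t, q.2)) q.1 hk (differentiableAt_id.prodMk (differentiableAt_const _)))
  have hk' : ∀ W, fderiv ℝ (fun r : Cm p × Cm d => (κ r.1 : ℂ)) q W = fderiv ℝ κ q.1 W.1 :=
    fun W => congrArg (fun L => L W)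
      (ofRealCLM.hasFDerivAt.comp q (hκ.hasFDerivAt.comp q hasFDerivAt_fst)).fderiv
  have m : ∀ W, (Dm (gP P) q W * ((σ q)⁻¹)ᴴ + gP P q * (Dm (fun r => (σ r)⁻¹) q W)ᴴ) * (gP P q)ᵀ +
      gP P q * ((σ q)⁻¹)ᴴ * (Dm (gP P) q W)ᵀ =
      (fderiv ℝ κ q.1 W.1 : ℂ) • σ q + (κ q.1 : ℂ) • Dm σ q W := fun W => by
    have e := Dm_congr ev W
    rw [Dm_mul (hg.mul hR) hgt, Dm_mul hg hR, Dm_smul hk hσ.re, hR', hk'] at e
    exact e
  have m1 := m (τ, a q)
  have m2 := m (I • (τ, a q))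
  rw [Dm_I hσ, Dm_I (hσ.inv p4)] at m2
  rw [← Matrix.conjTranspose_nonsing_inv] at p5
  have c1 : Dm (gP P) q (τ, a q) = -(Aᵀ * gP P q + gP P q * A.map (starRingEnd ℂ)) := by
    rw [← add_eq_zero_iff_eq_neg, ← add_assoc, b1]
  have c2 : Dm (gP P) q (I • (τ, a q)) =
      -(I • (Aᵀ * gP P q) - I • (gP P q * A.map (starRingEnd ℂ))) := by
    rw [← add_eq_zero_iff_eq_neg, ← b3]
    have : (I • A).map (starRingEnd ℂ) = -(I • A.map (starRingEnd ℂ)) := by
      ext j k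
      simp
    rw [this, Matrix.transpose_smul, Matrix.smul_mul, Matrix.mul_neg, Matrix.mul_smul, add_assoc,
      sub_eq_add_neg]
    rfl
  have main : Dm σ q (τ, a q) + Aᵀ * σ q + σ q * A = mu κ τ q.1 • σ q := by
    have x1 : Aᵀ * gP P q * ((σ q)⁻¹)ᴴ * (gP P q)ᵀ = (κ q.1 : ℂ) • (Aᵀ * σ q) := by
      rw [← Matrix.mul_smul, ← p5]
      simp only [Matrix.mul_assoc]
    have x2 : gP P q * ((σ q)⁻¹)ᴴ * (Aᵀ * gP P q)ᵀ = (κ q.1 : ℂ) • (σ q * A) := by
      rw [← Matrix.smul_mul, ← p5, Matrix.transpose_mul, Matrix.transpose_transpose]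
      simp only [Matrix.mul_assoc]
    rw [c1] at m1
    rw [c2] at m2
    simp only [Matrix.add_mul, Matrix.sub_mul, Matrix.neg_mul, Matrix.smul_mul, Matrix.mul_add,
      Matrix.mul_sub, Matrix.mul_neg, Matrix.mul_smul, Matrix.transpose_neg, Matrix.transpose_add,
      Matrix.transpose_sub, Matrix.transpose_smul, Matrix.conjTranspose_smul, x1, x2, star_def,
      conj_I, Prod.smul_fst] at m1 m2
    ext j k
    have n1 := congrFun (congrFun m1 j) k
    have n2 := congrFun (congrFun m2 j) k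
    exact alg (ofReal_ne_zero.2 p1.ne') n1 n2
  refine ⟨(-I) • (σ q * B), ?_, fun v v' => ?_⟩
  · have hu : IsUnit (gP P q).det := (Matrix.isUnit_iff_isUnit_det _).1 p2.isUnit
    have hs : (B * (gP P q)⁻¹)ᵀ = B * (gP P q)⁻¹ := by
      have hu' : IsUnit (gP P q)ᵀ.det := by rwa [Matrix.det_transpose]
      rw [Matrix.transpose_mul, Matrix.transpose_nonsing_inv,
        ← Matrix.mul_nonsing_inv_cancel_right (gP P q) Bᵀ hu, b2, ← Matrix.mul_assoc,
        Matrix.nonsing_inv_mul_cancel_left _ _ hu']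
    have ht : (σ q * (B * (gP P q)⁻¹)).trace = -(σ q * (B * (gP P q)⁻¹)).trace := by
      conv_lhs => rw [← Matrix.trace_transpose, Matrix.transpose_mul, hs, p3, Matrix.mul_neg,
        Matrix.trace_neg, Matrix.trace_mul_comm]
    rw [Matrix.mul_smul, Matrix.trace_smul, Matrix.trace_mul_comm, Matrix.mul_assoc,
      show (σ q * (B * (gP P q)⁻¹)).trace = 0 by linear_combination ht / 2, smul_zero]
  · have e : (fun r => bv (f20 (σ r)) v v') =ᶠ[𝓝 q] fun r => v ⬝ᵥ σ r *ᵥ v' :=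
      hl.pt.mono fun r hr => bv_f20 hr.2.2.1 v v'
    have e2 := congrArg (fun X => v ⬝ᵥ X *ᵥ v') main
    have e3 : star v ⬝ᵥ (Bᵀ * σ q) *ᵥ v' = -(v' ⬝ᵥ (σ q * B) *ᵥ star v) := by
      rw [dot_t, Matrix.transpose_mul, Matrix.transpose_transpose, p3, Matrix.neg_mul,
        Matrix.neg_mulVec, dotProduct_neg]
    simp only [lie, e.fderiv_eq, (fd_dot hσ.re _ _).2, bv_f20 p3, bv_f11, hAB, add_dotProduct,
      Matrix.mulVec_add, dotProduct_add, dot_l, Matrix.mulVec_mulVec, Matrix.smul_mulVec,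
      dotProduct_smul, smul_eq_mul, Matrix.add_mulVec, e3] at e2 ⊢
    linear_combination e2 + (v ⬝ᵥ (σ q * B) *ᵥ star v' - v' ⬝ᵥ (σ q * B) *ᵥ star v) * I_mul_I

end Vale.Agent.P301Z.Hl
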