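import Vale.Agent.P301Z.Hl.Defs
import Vale.Agent.P299.H956.D1.Pull
import Vale.Agent.P284Y.O.Pot

/-!
# P301, block HL: product charts
-/

open scoped Manifold ContDiff ComplexOrder Topology Matrix
open Set Filter Metric Complex Function
open Vale.Agent.P272.K Vale.Agent.P299.IX Vale.Agent.P299.IX.Fock
open Vale.Agent.P281Z (Mf Co AnV exists_co)
open Vale.Agent.P299.D (pullM jacF)
open Vale.Agent.P299.H956 (jmR jmR_apply jmR_mulVec jmR_comp jmR_congr cHess_compR pullM_eq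
  at_chartAt)
open Vale.Agent.P301Z.Lat Vale.Agent.P301Z.Rot

noncomputable section

namespace Vale.Agent.P301Z.Hl

namespace PchX

variable {d a D : ℕ}

theorem star_mv (K : Mx d) (v : Cm d) : star (K *ᵥ v) = K.map (starRingEnd ℂ) *ᵥ star v := by
  funext i
  simp [Matrix.mulVec, dotProduct]

theorem dot_cg (K A K' : Mx d) (v u : Cm d) :
    v ⬝ᵥ (Kᵀ * A * K') *ᵥ u = (K *ᵥ v) ⬝ᵥ A *ᵥ (K' *ᵥ u) := by
  rw [← Matrix.mulVec_mulVec, ← Matrix.mulVec_mulVec, Matrix.dotProduct_mulVec,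
    Matrix.vecMul_transpose]

theorem bv11 (K g : Mx d) (v v' : Cm d) :
    bv (f11 (Kᵀ * g * K.map (starRingEnd ℂ))) v v' = bv (f11 g) (K *ᵥ v) (K *ᵥ v') := by
  rw [bv_f11, bv_f11, dot_cg, dot_cg, star_mv, star_mv]

theorem bv20 (K : Mx d) {σ : Mx d} (h : σᵀ = -σ) (v v' : Cm d) :
    bv (f20 (Kᵀ * σ * K)) v v' = bv (f20 σ) (K *ᵥ v) (K *ᵥ v') := by
  rw [bv_f20 h, bv_f20, dot_cg]
  rw [Matrix.transpose_mul, Matrix.transpose_mul, Matrix.transpose_transpose, h, Matrix.neg_mul,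
    Matrix.mul_neg, Matrix.mul_assoc]

theorem cancel {K A B : Mx d} (hK : K.det ≠ 0) (h : Kᵀ * A * K = Kᵀ * B * K) : A = B := by
  have h1 : IsUnit K := (Matrix.isUnit_iff_isUnit_det K).2 (isUnit_iff_ne_zero.2 hK)
  have h2 : IsUnit Kᵀ := (Matrix.isUnit_iff_isUnit_det _).2
    (isUnit_iff_ne_zero.2 (by rwa [Matrix.det_transpose]))
  exact h2.mul_left_cancel (h1.mul_right_cancel h)

theorem transfer {K g σ : Mx d} {κ : ℂ} (hK : K.det ≠ 0)
    (h1 : (Kᵀ * g * K.map (starRingEnd ℂ)).PosDef) (h2 : (Kᵀ * σ * K)ᵀ = -(Kᵀ * σ * K))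
    (h3 : (Kᵀ * σ * K).det ≠ 0)
    (h4 : Kᵀ * g * K.map (starRingEnd ℂ) * ((Kᵀ * σ * K)ᴴ)⁻¹ * (Kᵀ * g * K.map (starRingEnd ℂ))ᵀ =
      κ • (Kᵀ * σ * K)) :
    g.PosDef ∧ σᵀ = -σ ∧ σ.det ≠ 0 ∧ g * (σᴴ)⁻¹ * gᵀ = κ • σ := by
  have e1 : (Kᵀ)ᴴ = K.map (starRingEnd ℂ) := by
    ext i j
    rfl
  have e2 : (K.map (starRingEnd ℂ))ᵀ = Kᴴ := by
    ext i j
    rfl
  have u1 : IsUnit (K.map (starRingEnd ℂ)).det := isUnit_conj (isUnit_iff_ne_zero.2 hK)
  have u2 : IsUnit Kᴴ.det := by rw [← e2, Matrix.det_transpose]; exact u1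
  have u3 : IsUnit Kᵀ := (Matrix.isUnit_iff_isUnit_det _).2
    (isUnit_iff_ne_zero.2 (by rwa [Matrix.det_transpose]))
  refine ⟨?_, cancel hK ?_, fun h0 => h3 ?_, cancel hK ?_⟩
  · rw [← e1] at h1
    exact (Matrix.IsUnit.posDef_star_right_conjugate_iff u3).1 h1
  · rw [Matrix.transpose_mul, Matrix.transpose_mul, Matrix.transpose_transpose] at h2
    rw [Matrix.mul_neg, Matrix.neg_mul, ← h2, Matrix.mul_assoc]
  · rw [Matrix.det_mul, Matrix.det_mul, h0, mul_zero, zero_mul]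
  · rw [Matrix.mul_smul, Matrix.smul_mul, ← h4, Matrix.conjTranspose_mul, Matrix.conjTranspose_mul,
      e1, Matrix.mul_inv_rev, Matrix.mul_inv_rev, Matrix.transpose_mul, Matrix.transpose_mul,
      Matrix.transpose_transpose, e2]
    simp only [Matrix.mul_assoc]
    rw [Matrix.mul_nonsing_inv_cancel_left _ _ u1, Matrix.nonsing_inv_mul_cancel_left _ _ u2]

theorem pull_sum {ρ φ : Cm D → ℝ} {F : Cm a → Cm D} {u : Cm a → ℝ} {b : Cm a}
    (hρ : ContDiffAt ℝ 2 ρ (F b)) (hφ : ContDiffAt ℝ 2 φ (F b)) (hF : AnalyticAt ℂ F b)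
    (hu : u =ᶠ[𝓝 b] fun x => φ (F x)) :
    (jmR F b)ᵀ * cHess ρ (F b) * (jmR F b).map (starRingEnd ℂ) + cHess u b =
      (jmR F b)ᵀ * cHess (fun x => ρ x + φ x) (F b) * (jmR F b).map (starRingEnd ℂ) := by
  rw [cHess_congr hu, cHess_compR hφ hF.contDiffAt, cHess_add hρ hφ, Matrix.mul_add,
    Matrix.add_mul]

/-- the Jacobian matrix along the fibres -/
def Jf {p : ℕ} (G : Cm p × Cm d → Cm D) (r : Cm p × Cm d) : Matrix (Fin D) (Fin d) ℂ :=
  Matrix.of fun l j => fderiv ℂ G r (0, Pi.single j 1) l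

theorem an_slice {p : ℕ} {G : Cm p × Cm d → Cm D} {r : Cm p × Cm d} (h : AnalyticAt ℂ G r) :
    AnalyticAt ℂ (fun z => G (r.1, z)) r.2 :=
  AnalyticAt.comp (g := G) (f := fun z : Cm d => ((r.1, z) : Cm p × Cm d)) h
    (analyticAt_const.prod analyticAt_id)

theorem Jf_eq {p : ℕ} {G : Cm p × Cm d → Cm D} {r : Cm p × Cm d} (h : AnalyticAt ℂ G r) :
    jmR (fun z => G (r.1, z)) r.2 = Jf G r := by
  ext l j
  rw [jmR_apply (an_slice h).differentiableAt]
  have h1 : HasFDerivAt (fun z => G (r.1, z)) _ r.2 :=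
    HasFDerivAt.comp (f := fun z : Cm d => ((r.1, z) : Cm p × Cm d)) r.2
      (g := G) h.differentiableAt.hasFDerivAt (hasFDerivAt_prodMk_right r.1 r.2)
  rw [h1.fderiv]
  rfl

theorem Jf_an {p : ℕ} {G : Cm p × Cm d → Cm D} {r : Cm p × Cm d} (h : AnalyticAt ℂ G r) (l j) :
    AnalyticAt ℂ (fun r => Jf G r l j) r :=
  ((ContinuousLinearMap.proj (R := ℂ) (φ := fun _ : Fin D => ℂ) l).comp
    (ContinuousLinearMap.apply ℂ (Cm D) (((0 : Cm p), Pi.single j 1) : Cm p × Cm d))).analyticAt _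
      |>.comp h.fderiv

end PchX

open PchX

theorem pch_of (hL : LV) : PCH := by
  intro n r B F k D V W c t₀ δ L N φ κ hC y hy hyN
  obtain ⟨ep, hep⟩ : ∃ ep : Chart D V.X, At ep y := ⟨_, at_chartAt y⟩
  have two : (2 : WithTop ℕ∞) ≤ ∞ := by norm_cast
  obtain ⟨R, hR, hb⟩ := Metric.mem_nhds_iff.1 hep.nhds_target
  obtain ⟨ρ, hρ, hρW⟩ := P284Y.O.exists_pot (ep y) (half_pos hR) (half_lt_self hR) (W ep)
    (fun z hz => L.kah.toIsHermitian.smooth_target hep.1 (hb hz))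
    (fun z hz => (L.kah.toIsHermitian.posDef_target hep.1 (hb hz)).isHermitian)
    fun z hz i j l => by
      have := L.kah.closed ep _ (At.of_target hep.1 (hb hz)) i j l
      rwa [ep.right_inv (hb hz)] at this
  obtain ⟨S, hS, hrel⟩ := L.rel y hy ep hep
  have hgc : ContinuousAt L.g y := (AnV.pi (F := L.g) (L.hol y hy)).cont
  have hI : P277Z.Slc.Ind D (fun a y => L.g y a) y := by
    refine ⟨L.hol y hy, fun e he => (P277Z.Slc.ind_iff_surj _).2 ?_⟩
    have h1 := L.sbm y hy e he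
    rwa [fderiv_pi fun a => (L.hol y hy a e he).differentiableAt] at h1
  have hce : ContinuousAt ep y := ep.continuousAt hep.2
  obtain ⟨Θ, hco, hmem, hU, hfst⟩ := exists_co hI (d := n + n) (by rw [L.dim]; simp)
    (((((L.opn.eventually_mem hy).and (hgc.eventually (hC.opn.mem_nhds hyN))).and
      (P281Z.at_near hep)).and (hce.eventually (ball_mem_nhds (ep y) (half_pos hR)))).and
      ((hce.eventually (eventually_all.2 fun a => eventually_all.2 fun b =>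
        (hS a b).eventually_analyticAt)).and hrel))
  obtain ⟨G, hG⟩ : ∃ G : Cm (c + 1) × Cm (n + n) → Cm D, G = fun r => ep (Θ.symm r) := ⟨_, rfl⟩
  obtain ⟨Q, hQ⟩ : ∃ Q : Cm D → ℝ, Q = fun z => ρ z + φ (ep.symm z) := ⟨_, rfl⟩
  have hGΘ : ∀ y' ∈ Θ.source, G (Θ y') = ep y' := fun y' h => by simp only [hG, Θ.left_inv h]
  have hGa : ∀ y' ∈ Θ.source, AnalyticAt ℂ G (Θ y') := fun y' h => by
    rw [hG]
    exact hco.inv _ (Θ.map_source h) ep (by rw [Θ.left_inv h]; exact (hU h).1.1.2)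
  have hφ : ∀ y' ∈ Θ.source, ContDiffAt ℝ ∞ (fun z => φ (ep.symm z)) (ep y') := fun y' h =>
    hC.sm y' (hU h).1.1.1.1 (hU h).1.1.1.2 ep (hU h).1.1.2
  have hQs : ∀ y' ∈ Θ.source, ContDiffAt ℝ ∞ Q (ep y') := fun y' h => by
    rw [hQ]; exact hρ.contDiffAt.add (hφ y' h)
  have hPs : ∀ y' ∈ Θ.source, ContDiffAt ℝ ∞ (fun r => Q (G r)) (Θ y') := fun y' h =>
    ContDiffAt.comp (g := Q) (Θ y') (by rw [hGΘ y' h]; exact hQs y' h)
      (((hGa y' h).contDiffAt (n := ∞)).restrict_scalars ℝ)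
  have hgP : ∀ y' ∈ Θ.source, gP (fun r => Q (G r)) (Θ y') =
      (Jf G (Θ y'))ᵀ * cHess Q (ep y') * (Jf G (Θ y')).map (starRingEnd ℂ) := fun y' h => by
    have h1 := cHess_compR (f := Q) (τ := fun z => G ((Θ y').1, z)) (z := (Θ y').2)
      (by rw [Prod.mk.eta, hGΘ y' h]; exact (hQs y' h).of_le two) (an_slice (hGa y' h)).contDiffAt
    rw [Jf_eq (hGa y' h), Prod.mk.eta, hGΘ y' h] at h1
    exact h1
  have core : ∀ t ∈ ball t₀ δ, ∀ z, (L.Φ t).i z ∈ Θ.source →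
      ∀ e : Chart (n + n) (L.Φ t).Y.V.X, At e z → ∃ K : Mx (n + n), K.det ≠ 0 ∧
        (∀ v, fderiv ℝ (fun b => (Θ ((L.Φ t).i (e.symm b))).2) (e z) v = K *ᵥ v) ∧
        wF L φ t e (e z) = Kᵀ * gP (fun r => Q (G r)) (Θ ((L.Φ t).i z)) *
          K.map (starRingEnd ℂ) ∧
        (L.Φ t).s e (e z) = Kᵀ * ((Jf G (Θ ((L.Φ t).i z)))ᵀ * S (G (Θ ((L.Φ t).i z))) *
          Jf G (Θ ((L.Φ t).i z))) * K := by
    intro t ht z hz e he
    have hE := L.emb t ht
    have hi := hE.hol.at z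
    have hpz : At ep ((L.Φ t).i z) := (hU hz).1.1.2
    have hF : AnalyticAt ℂ (fun b => ep ((L.Φ t).i (e.symm b))) (e z) := hi.an he hpz
    have hev : ∀ᶠ b in 𝓝 (e z), (L.Φ t).i (e.symm b) ∈ Θ.source :=
      P281Z.at_ev he (hi.cont.eventually (Θ.open_source.mem_nhds hz))
    have hΘa : AnalyticAt ℂ (fun b => Θ ((L.Φ t).i (e.symm b))) (e z) := by
      refine (AnalyticAt.comp (g := fun x => Θ (ep.symm x))
        (f := fun b => ep ((L.Φ t).i (e.symm b))) ?_ hF).congr ?_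
      · rw [he.left_inv]
        exact hco.an _ hz ep hpz
      · filter_upwards [hev] with b hb'
        show Θ (ep.symm (ep _)) = _
        rw [ep.left_inv (hU hb').1.1.2.2]
    have hρa : AnalyticAt ℂ (fun b => (Θ ((L.Φ t).i (e.symm b))).2) (e z) :=
      analyticAt_snd.comp hΘa
    have h1 : ∀ z', (L.Φ t).i z' ∈ Θ.source → (Θ ((L.Φ t).i z')).1 = t := fun z' h =>
      (hfst _ h).trans (hE.mem z').2
    have hJ : jacF (L.Φ t).i e ep z = Jf G (Θ ((L.Φ t).i z)) *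
        jmR (fun b => (Θ ((L.Φ t).i (e.symm b))).2) (e z) := by
      have e1 : (fun b => ep ((L.Φ t).i (e.symm b))) =ᶠ[𝓝 (e z)]
          fun b => G ((Θ ((L.Φ t).i z)).1, (Θ ((L.Φ t).i (e.symm b))).2) := by
        filter_upwards [hev] with b hb'
        rw [h1 z hz, ← hGΘ _ hb']
        exact congrArg G (Prod.ext (h1 _ hb') rfl)
      have e2 := jmR_comp (σ := fun x => G ((Θ ((L.Φ t).i z)).1, x))
        (τ := fun b => (Θ ((L.Φ t).i (e.symm b))).2) (z := e z)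
        (by rw [he.left_inv]; exact (an_slice (hGa _ hz)).differentiableAt) hρa.differentiableAt
      rw [he.left_inv, Jf_eq (hGa _ hz)] at e2
      exact (jmR_congr e1).trans e2
    refine ⟨jmR (fun b => (Θ ((L.Φ t).i (e.symm b))).2) (e z), fun h0 => ?_, fun v => ?_, ?_, ?_⟩
    · obtain ⟨x, hx, hx0⟩ := Matrix.exists_mulVec_eq_zero_iff.2 h0
      refine hx (hE.imm z e ep he hpz ?_)
      rw [map_zero]
      refine (jmR_mulVec hF.differentiableAt x).trans ?_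
      show jacF (L.Φ t).i e ep z *ᵥ x = 0
      rw [hJ, ← Matrix.mulVec_mulVec, hx0, Matrix.mulVec_zero]
    · rw [hρa.differentiableAt.fderiv_restrictScalars ℝ]
      exact jmR_mulVec hρa.differentiableAt v
    · have e1 := pull_sum (ρ := ρ) (φ := fun x => φ (ep.symm x))
        (u := fun b => φ ((L.Φ t).i (e.symm b))) (hρ.contDiffAt.of_le two)
        (by rw [he.left_inv]; exact (hφ _ hz).of_le two) hF (by
          filter_upwards [hev] with b hb'
          rw [ep.left_inv (hU hb').1.1.2.2])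
      rw [he.left_inv, hρW _ (hU hz).1.2, ← hQ] at e1
      have e2 : wF L φ t e (e z) = pullM (L.Φ t).i W e (e z) +
        cHess (fun b => φ ((L.Φ t).i (e.symm b))) (e z) := rfl
      rw [e2, pullM_eq L.kah.toIsHermitian.isForm hi he hpz]
      refine e1.trans ?_
      show (jacF (L.Φ t).i e ep z)ᵀ * _ * (jacF (L.Φ t).i e ep z).map _ = _
      rw [hJ, hgP _ hz, Matrix.transpose_mul, Matrix.map_mul]
      simp only [Matrix.mul_assoc]
    · rw [(hU hz).2.2 t ht z rfl e he, hJ, hGΘ _ hz, Matrix.transpose_mul]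
      simp only [Matrix.mul_assoc]
  have hpt : ∀ y' ∈ Θ.source, 0 < κ (Θ y').1 ∧ (gP (fun r => Q (G r)) (Θ y')).PosDef ∧
      ((Jf G (Θ y'))ᵀ * S (G (Θ y')) * Jf G (Θ y'))ᵀ =
        -((Jf G (Θ y'))ᵀ * S (G (Θ y')) * Jf G (Θ y')) ∧
      ((Jf G (Θ y'))ᵀ * S (G (Θ y')) * Jf G (Θ y')).det ≠ 0 ∧
      gP (fun r => Q (G r)) (Θ y') * (((Jf G (Θ y'))ᵀ * S (G (Θ y')) * Jf G (Θ y'))ᴴ)⁻¹ *
        (gP (fun r => Q (G r)) (Θ y'))ᵀ =
        (κ (Θ y').1 : ℂ) • ((Jf G (Θ y'))ᵀ * S (G (Θ y')) * Jf G (Θ y')) := by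
    intro y' h
    have htN : L.g y' ∈ N := (hU h).1.1.1.2
    have ht := hC.sub htN
    obtain ⟨z, hz⟩ := (L.emb _ ht).ex (y := y') ⟨(hU h).1.1.1.1, rfl⟩
    have he := at_chartAt (n := n + n) z
    obtain ⟨K, k1, -, k3, k4⟩ := core _ ht z (by rw [hz]; exact h) _ he
    have hk := hC.hk _ htN
    have q1 := hk.kahler.posDef _ _ he
    have q2 := (L.sym _ ht).1.1.alt _ _ he
    have q3 := (L.sym _ ht).2 _ _ he
    have q4 := hk.rel _ _ he
    rw [hz] at k3 k4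
    rw [k3] at q1 q4
    rw [k4] at q2 q3 q4
    have e : (Θ y').1 = L.g y' := hfst y' h
    rw [e]
    exact ⟨hk.pos, transfer k1 q1 q2 q3 q4⟩
  refine ⟨⟨Θ, fun r => Q (G r), fun r => (Jf G r)ᵀ * S (G r) * Jf G r, hco, hmem, hfst,
    ⟨hPs y hmem, fun j l => ?_, ?_⟩, ?_, ?_⟩⟩
  · simp only [Matrix.mul_apply, Matrix.transpose_apply]
    refine Finset.analyticAt_fun_sum _ fun b _ => AnalyticAt.fun_mul
      (Finset.analyticAt_fun_sum _ fun a _ => AnalyticAt.fun_mul (Jf_an (hGa y hmem) a j) ?_)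
      (Jf_an (hGa y hmem) b l)
    exact AnalyticAt.comp (g := fun z => S z a b) (f := G) (by rw [hGΘ y hmem]; exact hS a b)
      (hGa y hmem)
  · filter_upwards [Θ.open_target.mem_nhds (Θ.map_source hmem)] with q hq
    have := hpt _ (Θ.map_target hq)
    rwa [Θ.right_inv hq] at this
  · filter_upwards [Θ.open_source.mem_nhds hmem] with y' h t ht z hz e he
    subst hz
    obtain ⟨K, k1, k2, k3, k4⟩ := core t ht z h e he
    refine ⟨?_, fun v v' => by rw [k2, k2, k3, bv11], fun v v' => by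
      rw [k2, k2, k4, bv20 K (hpt _ h).2.2.1]⟩
    have e1 : (fderiv ℝ (fun b => (Θ ((L.Φ t).i (e.symm b))).2) (e z) : Cm (n + n) → Cm (n + n)) =
        K.mulVec := funext k2
    have u : IsUnit K := (Matrix.isUnit_iff_isUnit_det K).2 (isUnit_iff_ne_zero.2 k1)
    rw [e1]
    exact ⟨Matrix.mulVec_injective_iff_isUnit.2 u, Matrix.mulVec_surjective_iff_isUnit.2 u⟩
  · filter_upwards [Θ.open_source.mem_nhds hmem] with y' h e he v v'
    have hp : At ep y' := (hU h).1.1.2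
    have hF : AnalyticAt ℂ (fun b => ep (e.symm b)) (e y') := (transition he hp).analyticAt
    have hev : ∀ᶠ b in 𝓝 (e y'), e.symm b ∈ Θ.source :=
      P281Z.at_ev he (Θ.open_source.mem_nhds h)
    have e1 := pull_sum (ρ := ρ) (φ := fun x => φ (ep.symm x)) (u := fun b => φ (e.symm b))
      (hρ.contDiffAt.of_le two) (by rw [he.left_inv]; exact (hφ _ h).of_le two) hF (by
        filter_upwards [hev] with b hb'
        rw [ep.left_inv (hU hb').1.1.2.2])
    have e2 := cHess_compR (f := Q) (τ := fun b => ep (e.symm b)) (z := e y')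
      (by rw [he.left_inv]; exact (hQs _ h).of_le two) hF.contDiffAt
    rw [← hQ, ← e2, he.left_inv, hρW _ (hU h).1.2] at e1
    have e3 : (fun b => Q (ep (e.symm b))) =ᶠ[𝓝 (e y')] fun b => Q (G (Θ (e.symm b))) := by
      filter_upwards [hev] with b hb'
      rw [hGΘ _ hb']
    have e4 : addH W φ e (e y') = cHess (fun b => Q (G (Θ (e.symm b)))) (e y') := by
      rw [← cHess_congr e3, ← e1]
      exact congrArg (fun A => A + cHess (fun b => φ (e.symm b)) (e y')) (L.kah.change e ep y' he hp)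
    have hΘ := hco.an y' h e he
    have hP2 : ContDiffAt ℝ 2 (fun r => Q (G r)) (Θ (e.symm (e y'))) := by
      rw [he.left_inv]; exact (hPs y' h).of_le two
    have e5 := hL.hol (fun r => Q (G r)) (fun b => Θ (e.symm b)) (e y') v v' hΘ hP2
    rw [he.left_inv] at e5
    rw [e4, ← e5]
    exact (hL.hess (fun b => Q (G (Θ (e.symm b)))) (e y') v v'
      (ContDiffAt.comp (g := fun r => Q (G r)) (e y') hP2
        ((hΘ.contDiffAt (n := 2)).restrict_scalars ℝ))).symm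

end Vale.Agent.P301Z.Hl
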