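import Vale.Agent.P301Z.Hl.Defs
import Vale.Agent.P301Z.Rot.R1

/-!
# P301, block HL: the rows RTU and NRM
-/

open Vale.Agent.P301Z.Lat

namespace Vale.Agent.P301Z.Hl

theorem rtu : RTU := fun _ _ _ _ _ _ _ _ _ _ _ _ _ _ _ _ hs _ hk i1 i2 m1 m2 hs' h1 h2 h3 hT e =>
  Rot.rtu hs hk i1 i2 m1 m2 hs' h3 h1 h2 hT e

theorem nrm (hL : LAT) : NRM := fun _ _ _ _ _ _ _ _ _ h hk => by
  rw [Rot.kappa_eq hL h hk]
  ring

end Vale.Agent.P301Z.Hl
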